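import Crest.Agent.N255.Tp.Phi
import Crest.Agent.N255.Tp.Kt
import Crest.Agent.N255.Uc.Sh

/-!
# Row 255 (helper1): equivariant choices, invariant families of small cells
-/

set_option autoImplicit false
open Set Filter Topology
open scoped Pointwise

noncomputable section

namespace Crest.Agent.N255.Kf

open Tp Uc

section eqv
variable {G N Y : Type} [Group G] [MulAction G N] [MulAction G Y]

theorem exists_gam (fr : ∀ (g : G) (n : N), g • n = n → g = 1) :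
    ∃ (γ : N → G) (rp : N → N), (∀ n, γ n • rp n = n) ∧ (∀ (g : G) n, rp (g • n) = rp n) ∧
      ∀ (g : G) n, γ (g • n) = g * γ n := by
  let rp : N → N := fun n => (Quotient.mk (MulAction.orbitRel G N) n).out
  have h1 : ∀ n, ∃ g : G, g • rp n = n := fun n =>
    MulAction.orbitRel_apply.1 ((MulAction.orbitRel G N).symm (Quotient.mk_out (s := MulAction.orbitRel G N) n))
  choose γ hγ using h1
  have h2 : ∀ (g : G) n, rp (g • n) = rp n := fun g n =>
    congrArg Quotient.out (Quotient.sound (MulAction.orbitRel_apply.2 ⟨g, rfl⟩))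
  refine ⟨γ, rp, hγ, h2, fun g n => ?_⟩
  have := fr ((g * γ n)⁻¹ * γ (g • n)) (rp n) (by
    rw [mul_smul, ← h2 g n, hγ, h2, inv_smul_eq_iff, mul_smul, hγ])
  exact (inv_mul_eq_one.1 this).symm

/-- equivariant choice -/
theorem exists_eqv (fr : ∀ (g : G) (n : N), g • n = n → g = 1) (P : N → Y → Prop)
    (hP : ∀ (g : G) n y, P n y → P (g • n) (g • y)) (ex : ∀ n, ∃ y, P n y) :
    ∃ f : N → Y, (∀ n, P n (f n)) ∧ ∀ (g : G) n, f (g • n) = g • f n := by
  obtain ⟨γ, rp, h1, h2, h3⟩ := exists_gam fr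
  choose f hf using ex
  exact ⟨fun n => γ n • f (rp n), fun n => by simpa only [h1] using hP (γ n) _ _ (hf (rp n)),
    fun g n => by simp only [h2, h3, mul_smul]⟩

/-- injective equivariant maps -/
theorem exists_inj [Countable G] [Uncountable Y] (fr : ∀ (g : G) (n : N), g • n = n → g = 1)
    (fr' : ∀ (g : G) (y : Y), g • y = y → g = 1) {B : Set N} (hB : B.Finite)
    (hc : ∀ n, ∃ g : G, g • n ∈ B) :
    ∃ f : N → Y, Function.Injective f ∧ ∀ (g : G) n, f (g • n) = g • f n := by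
  obtain ⟨γ, rp, h1, h2, h3⟩ := exists_gam fr
  have : Infinite (Quotient (MulAction.orbitRel G Y)) := not_finite_iff_infinite.1 fun _ => by
    refine not_countable (α := Y) (Function.Surjective.countable
      (f := fun p : G × Quotient (MulAction.orbitRel G Y) => p.1 • p.2.out) fun y => ?_)
    obtain ⟨g, hg⟩ := MulAction.orbitRel_apply.1
      ((MulAction.orbitRel G Y).symm (Quotient.mk_out (s := MulAction.orbitRel G Y) y))
    exact ⟨(g, _), hg⟩
  have hf : (range rp).Finite := (hB.image rp).subset (by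
    rintro _ ⟨n, rfl⟩
    obtain ⟨g, hg⟩ := hc n
    exact ⟨_, hg, h2 g n⟩)
  have := hf.to_subtype
  obtain ⟨j, hj⟩ := (Countable.exists_injective_nat (range rp))
  let q : range rp → Quotient (MulAction.orbitRel G Y) := fun x => Infinite.natEmbedding _ (j x)
  have hq : Function.Injective q := (Infinite.natEmbedding _).injective.comp hj
  refine ⟨fun n => γ n • (q ⟨rp n, n, rfl⟩).out, fun n n' e => ?_, fun g n => by
    simp only [h2, h3, mul_smul]⟩
  have e1 : q ⟨rp n, n, rfl⟩ = q ⟨rp n', n', rfl⟩ := by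
    rw [← Quotient.out_eq (q _), ← Quotient.out_eq (q ⟨rp n', _⟩)]
    exact Quotient.sound (MulAction.orbitRel_apply.2 ⟨(γ n)⁻¹ * γ n', by
      simp only [mul_smul]; exact inv_smul_eq_iff.2 e.symm⟩)
  have e2 : rp n = rp n' := congrArg Subtype.val (hq e1)
  simp only [e1] at e
  have := fr' ((γ n')⁻¹ * γ n) _ (by rw [mul_smul]; exact inv_smul_eq_iff.2 e)
  rw [← h1 n, ← h1 n', ← e2, inv_mul_eq_one.1 this]

end eqv

variable {G T : Type} [Group G] [TopologicalSpace T] [MulAction G T] {d n : ℕ}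

theorem uncountable_of (h : GM (d + 1) G T) : Uncountable T := by
  have := h.chart.some
  have := h.pc
  obtain ⟨x⟩ : Nonempty T := inferInstance
  obtain ⟨j, a, -, -⟩ := Wi.exists_cell (d := d + 1) isOpen_univ (mem_univ x)
  have : Uncountable (EE (d + 1)) := Function.Injective.uncountable
    (f := fun t : ℝ => (EuclideanSpace.single 0 t : EE (d + 1))) fun a b e => by
      simpa using congrArg (· 0) e
  exact a.injective.uncountable

variable [ContinuousConstSMul G T]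

theorem range_smul (g : G) (σ : Sx n T) : range (g • σ) = g • range σ := by
  rw [← image_smul, ← range_comp]; rfl

theorem vx_smul (g : G) (σ : Sx n T) (t : Fin (n + 1)) : vx (g • σ) t = g • vx σ t := rfl

theorem range_smul_sub {g : G} {σ : Sx n T} {W : Set T} (h : range σ ⊆ W) : range (g • σ) ⊆ g • W := by
  rw [range_smul]; exact smul_set_mono h

theorem fil_smul {W : Set T} (h : Fil W) (g : G) : Fil (g • W) := by
  constructor
  · rintro _ ⟨x, hx, rfl⟩ _ ⟨y, hy, rfl⟩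
    obtain ⟨e, a, b, c⟩ := h.edge x hx y hy
    exact ⟨g • e, range_smul_sub a, congrArg (g • ·) b, congrArg (g • ·) c⟩
  · intro a b c ha hb hc e1 e2 e3
    have k : ∀ {a : Sx 1 T}, range a ⊆ g • W → range (g⁻¹ • a) ⊆ W := fun h => by
      simpa using range_smul_sub (g := g⁻¹) h
    obtain ⟨σ, s, s0, s1, s2⟩ := h.tri _ _ _ (k ha) (k hb) (k hc) (congrArg (g⁻¹ • ·) e1)
      (congrArg (g⁻¹ • ·) e2) (congrArg (g⁻¹ • ·) e3)
    exact ⟨g • σ, range_smul_sub s, by rw [fc_smul, s0, smul_inv_smul], by rw [fc_smul, s1, smul_inv_smul],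
      by rw [fc_smul, s2, smul_inv_smul]⟩

omit [ContinuousConstSMul G T] in
theorem fil_univ (h : GM d G T) : Fil (univ : Set T) := by
  simpa using fil_of_wc h.wc (j := ContinuousMap.id T) IsEmbedding.id

/-- an invariant family of small cells -/
structure Cl (G : Type) {T : Type} [Group G] [TopologicalSpace T] [MulAction G T] (K : Set T) {I : Type}
    (V : I → Set T) (𝒲 : Set (Set T)) : Prop where
  op : ∀ i, IsOpen (V i)
  fil : ∀ i, Fil (V i)
  ne : ∀ i, (V i).Nonempty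
  sub : ∀ i, V i ⊆ K
  cov : ∀ x, ∃ (g : G) (i : I), x ∈ g • V i
  star : ∀ (g g' : G) i i', (g • V i ∩ g' • V i').Nonempty → ∃ W ∈ 𝒲, g • V i ∪ g' • V i' ⊆ W
  inv : ∀ (g : G), ∀ W ∈ 𝒲, g • W ∈ 𝒲
  filW : ∀ W ∈ 𝒲, Fil W
  subW : ∀ W ∈ 𝒲, ∃ g : G, W ⊆ g • K

theorem exists_cl (h : GM d G T) {K0 K C : Set T} (h0 : IsCompact K0) (hc : ∀ x, ∃ g : G, g⁻¹ • x ∈ K0)
    (hK : IsCompact K) (hKK : K0 ⊆ interior K) (hC : IsCompact C) (Sz : Set T → Prop)
    (hm : ∀ U U', U ⊆ U' → Sz U' → Sz U) (hl : ∀ x ∈ C, ∃ U, IsOpen U ∧ x ∈ U ∧ Sz U) :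
    ∃ (I : Type) (_ : Finite I) (V : I → Set T) (𝒲 : Set (Set T)), Cl G K V 𝒲 ∧
      ∀ W ∈ 𝒲, (W ∩ C).Nonempty → Sz W := by
  classical
  have := h.t2
  have := h.chart.some
  have := h.lc
  have hl' : ∀ x, ∃ U, IsOpen U ∧ x ∈ U ∧ ((U ∩ C).Nonempty → Sz U) := fun x => by
    by_cases k : x ∈ C
    · exact (hl x k).imp fun _ a => ⟨a.1, a.2.1, fun _ => a.2.2⟩
    · exact ⟨Cᶜ, hC.isClosed.isOpen_compl, k, fun ⟨_, a, b⟩ => (a b).elim⟩
  choose U hU hxU hSU using hl'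
  have f0 := h.prp K C hK hC
  have f1 := h.prp K K hK hK
  have h1 : ∀ x : K0, ∃ W Q : Set T, (IsOpen W ∧ Fil W ∧ W ⊆ K ∧
      ∀ g : G, (g • W ∩ C).Nonempty → Sz (g • W)) ∧ IsCompact Q ∧ x.1 ∈ interior Q ∧ Q ⊆ W := fun x => by
    have ho : IsOpen (interior K ∩ ⋂ g ∈ {g : G | ∃ x ∈ K, g • x ∈ C}, (g • ·) ⁻¹' U (g • x.1)) :=
      isOpen_interior.inter (f0.isOpen_biInter fun g _ => (hU _).preimage (continuous_const_smul g))
    obtain ⟨j, a, b, c⟩ := Wi.exists_cell (d := d) ho (x := x.1)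
      ⟨hKK x.2, mem_iInter₂.2 fun g _ => hxU _⟩
    obtain ⟨Q, e, f, q⟩ := exists_compact_subset a.isOpen_range (⟨0, b⟩ : x.1 ∈ range j)
    refine ⟨_, Q, ⟨a.isOpen_range, fil_cell a.isEmbedding, fun y hy => interior_subset (c hy).1, ?_⟩, e, f, q⟩
    rintro g ⟨_, ⟨y, hy, rfl⟩, hy'⟩
    have s : g • range j ⊆ U (g • x.1) := by
      rintro _ ⟨z, hz, rfl⟩
      exact mem_iInter₂.1 (c hz).2 g ⟨y, interior_subset (c hy).1, hy'⟩
    exact hm _ _ s (hSU _ ⟨_, s ⟨y, hy, rfl⟩, hy'⟩)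
  choose W Q hW hQ hx hQW using h1
  obtain ⟨t, ht⟩ := h0.elim_finite_subcover (fun x : K0 => interior (Q x))
    (fun _ => isOpen_interior) fun x h => mem_iUnion.2 ⟨⟨x, h⟩, hx ⟨x, h⟩⟩
  have h2 : ∀ x : K0, ∃ V : Set T, IsOpen V ∧ Fil V ∧ x.1 ∈ V ∧ (∃ a ∈ t, V ⊆ Q a) ∧
      ∀ (g : G), ∀ a ∈ t, (V ∩ g • Q a).Nonempty → V ⊆ g • W a := fun x => by
    obtain ⟨a, ha, hxa⟩ := mem_iUnion₂.1 (ht x.2)
    have ho : IsOpen (interior (Q a) ∩ ⋂ g ∈ {g : G | ∃ x ∈ K, g • x ∈ K}, ⋂ b ∈ t,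
        if x.1 ∈ g • Q b then g • W b else (g • Q b)ᶜ) :=
      isOpen_interior.inter (f1.isOpen_biInter fun g _ => isOpen_biInter_finset fun b _ => by
        split_ifs
        exacts [(hW b).1.smul g, ((hQ b).smul g).isClosed.isOpen_compl])
    obtain ⟨j, e1, e2, e3⟩ := Wi.exists_cell (d := d) ho (x := x.1) ⟨hxa, mem_iInter₂.2 fun g _ =>
      mem_iInter₂.2 fun b _ => by
        split_ifs with h
        exacts [smul_set_mono (hQW b) h, h]⟩
    refine ⟨_, e1.isOpen_range, fil_cell e1.isEmbedding, ⟨0, e2⟩,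
      ⟨a, ha, fun y hy => interior_subset (e3 hy).1⟩, fun g b hb ⟨y, hy, hy'⟩ z hz => ?_⟩
    have hg : g ∈ {g : G | ∃ x ∈ K, g • x ∈ K} := by
      obtain ⟨u, hu, rfl⟩ := hy'
      exact ⟨u, (hW b).2.2.1 (hQW b hu), (hW a).2.2.1 (hQW a (interior_subset (e3 hy).1))⟩
    have f1 := mem_iInter₂.1 (mem_iInter₂.1 (e3 hy).2 g hg) b hb
    have f2 := mem_iInter₂.1 (mem_iInter₂.1 (e3 hz).2 g hg) b hb
    split_ifs at f1 f2
    exacts [f2, (f1 hy').elim]
  choose V hVo hVf hxV hVQ hVW using h2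
  obtain ⟨s, hs⟩ := h0.elim_finite_subcover V hVo fun x h => mem_iUnion.2 ⟨⟨x, h⟩, hxV ⟨x, h⟩⟩
  refine ⟨s, inferInstance, fun i => V i, {X | ∃ (g : G) (a : K0), X = g • W a},
    ⟨fun i => hVo i, fun i => hVf i, fun i => ⟨_, hxV i⟩, fun i => ?_, fun x => ?_, ?_, ?_, ?_, ?_⟩, ?_⟩
  · obtain ⟨a, -, e⟩ := hVQ i
    exact e.trans ((hQW a).trans (hW a).2.2.1)
  · obtain ⟨g, hg⟩ := hc x
    obtain ⟨y, hy, e⟩ := mem_iUnion₂.1 (hs hg)
    exact ⟨g, ⟨y, hy⟩, mem_smul_set_iff_inv_smul_mem.2 e⟩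
  · rintro g g' i i' ⟨z, h1, h2⟩
    obtain ⟨a, ha, e⟩ := hVQ i'
    refine ⟨g' • W a, ⟨g', a, rfl⟩, union_subset ?_ (smul_set_mono (e.trans (hQW a)))⟩
    have := hVW i (g⁻¹ * g') a ha ⟨g⁻¹ • z, mem_smul_set_iff_inv_smul_mem.1 h1, by
      rw [mul_smul]; exact smul_mem_smul_set (smul_set_mono e h2)⟩
    simpa [smul_smul] using smul_set_mono (a := g) this
  · rintro g _ ⟨g', a, rfl⟩; exact ⟨g * g', a, (mul_smul _ _ _).symm⟩
  · rintro _ ⟨g, a, rfl⟩; exact fil_smul (hW a).2.1 g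
  · rintro _ ⟨g, a, rfl⟩; exact ⟨g, smul_set_mono (hW a).2.2.1⟩
  · rintro _ ⟨g, a, rfl⟩; exact (hW a).2.2.2 g

/-- closed `1`-cochains vanishing on small edges vanish -/
theorem van_of_sm {k A : Type} [CommRing k] [AddCommGroup A] [Module k A] {𝒰 : Set (Set T)} {U : Set T}
    (ho : ∀ V ∈ 𝒰, IsOpen V) (hc : U ⊆ ⋃₀ 𝒰) {φ : Co A 1 T} (h : φ ∈ (On U).Z k A 1)
    (h' : φ ∈ ((On U).inf (Sm 𝒰)).van k A 1) : φ ∈ (On U).van k A 1 := fun e he => by
  have h1 := Sb.ev_eq_zero h' (Sml.rho_inf k ho hc (Sb.sg_mem (P := On U) he))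
  rwa [Sml.rho_succ, Sml.DD_zero, sub_zero, map_sub,
    Sb.ev_B h (Sb.bd_mem_B (Sml.DD_mem k 𝒰 U (Sb.sg_mem (P := On U) he))), sub_zero, ev_sg] at h1

omit [ContinuousConstSMul G T] in
theorem cob_tri {k A : Type} [CommRing k] [AddCommGroup A] [Module k A] (φ : Co A 1 T) (σ : Sx 2 T) :
    cob k φ σ = φ (fc σ 0) - φ (fc σ 1) + φ (fc σ 2) := by
  rw [← ev_sg (k := k) (cob k φ), ← ev_bd, bd_tri, map_add, map_sub, ev_sg, ev_sg, ev_sg]

omit [ContinuousConstSMul G T] in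
theorem cob_edge {k A : Type} [CommRing k] [AddCommGroup A] [Module k A] (η : T → A) (e : Sx 1 T) :
    cob k (fun p : Sx 0 T => η (vx p 0)) e = η (vx e 1) - η (vx e 0) := by
  rw [← ev_sg (k := k) (cob k _), ← ev_bd, bd_edge, map_sub, ev_sg, ev_sg]; rfl

end Crest.Agent.N255.Kf

end
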