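import Crest.Agent.N255.Kf.Zone
import Crest.Agent.N255.En.LevG
import Crest.Agent.N255.Wn.En
import Crest.Agent.N233.Lp.Gl
import Crest.Agent.N233.Lp.Abs

/-!
# Row 255 (helper1): exact zones in the universal cover
-/

set_option autoImplicit false
open Set Relation
open scoped Pointwise

noncomputable section

namespace Crest.Agent.N255.Kf

section susp
open N255.Ch N233.Hyp N255.Ra N233.Lp

variable {S N Ed : Type} [DecidableEq S] [DecidableEq Ed] {Γ : SimpleGraph S} {src tgt : Ed → N}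
  {T : S → Set N}

/-- the suspension of a wall -/
theorem psm_susp {ι : Type} {J : Set ι} {C : Finset S} {Tw : ι → Finset S} (h : Chm Γ J C Tw) {j : ι} (hj : j ∈ J)
    {e1 e2 : Ed} (ne : e1 ≠ e2) (hT : ∀ e, e = e1 ∨ e = e2 → ∀ s, Wl src tgt T e s ↔ s ∈ Tw j)
    {L : Set (S ⊕ Ed)} (hl : ∀ s, .inl s ∈ L ↔ s ∈ Tw j) (hr : ∀ e, .inr e ∈ L ↔ e = e1 ∨ e = e2) :
    Psm (cone Γ src tgt T) L := by
  let ι : S ↪ S ⊕ Ed := Function.Embedding.inl
  have nm : ∀ (e : Ed) (τ : Finset S), Sum.inr e ∉ τ.map ι := fun e τ => by simp [ι]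
  have cd : ∀ (e : Ed) (τ : Finset S), (insert (.inr e) (τ.map ι)).card = τ.card + 1 := fun e τ => by
    rw [Finset.card_insert_of_notMem (nm e τ), Finset.card_map]
  have cs : ∀ τ : Finset (S ⊕ Ed), (cone Γ src tgt T).IsClique (τ : Set (S ⊕ Ed)) → ↑τ ⊆ L →
      ∃ σ ∈ Q Γ (Tw j) ∅, τ = σ.map ι ∨ ∃ e, (e = e1 ∨ e = e2) ∧ τ = insert (.inr e) (σ.map ι) := by
    intro τ hτ hL
    have c1 : Γ.IsClique (τ.toLeft : Set S) := fun s hs t ht n =>
      hτ (Finset.mem_toLeft.1 hs) (Finset.mem_toLeft.1 ht) fun e => n (Sum.inl_injective e)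
    refine ⟨τ.toLeft, ⟨c1, Finset.empty_subset _, fun s hs => (hl s).1 (hL (Finset.mem_toLeft.1 hs))⟩, ?_⟩
    by_cases k : ∃ e, Sum.inr e ∈ τ
    · obtain ⟨e, he⟩ := k
      refine .inr ⟨e, (hr e).1 (hL he), Finset.ext ?_⟩
      rintro (s | e')
      · simp [ι]
      · simp only [Finset.mem_insert, nm, or_false]
        exact ⟨fun k => by_contra fun n => hτ k he n, fun k => k ▸ he⟩
    · refine .inl (Finset.ext ?_)
      rintro (s | e')
      · simp [ι]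
      · simp only [nm, iff_false]
        exact fun m => k ⟨_, m⟩
  have k1 : ∀ (σ : Finset S) s, Lk (cone Γ src tgt T) L (σ.map ι) (.inl s) ↔ Lk Γ (Tw j) σ s := fun σ s =>
    and_congr (hl s) (by simp only [Finset.forall_mem_map]; rfl)
  have k2 : ∀ σ ∈ Q Γ (Tw j) ∅, ∀ e, Lk (cone Γ src tgt T) L (σ.map ι) (.inr e) ↔ e = e1 ∨ e = e2 :=
    fun σ hσ e => ⟨fun k => (hr e).1 k.1, fun k => ⟨(hr e).2 k, by
      simp only [Finset.forall_mem_map]
      exact fun s hs => (hT e k s).2 (hσ.2.2 hs)⟩⟩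
  have k3 : ∀ e, e = e1 ∨ e = e2 → ∀ (σ : Finset S) s,
      Lk (cone Γ src tgt T) L (insert (.inr e) (σ.map ι)) (.inl s) ↔ Lk Γ (Tw j) σ s := by
    intro e he σ s
    simp only [Lk, Finset.forall_mem_insert, Finset.forall_mem_map, hl]
    exact ⟨fun k => ⟨k.1, k.2.2⟩, fun k => ⟨k.1, (hT e he s).2 k.1, k.2⟩⟩
  have k4 : ∀ e e' (σ : Finset S),
      ¬Lk (cone Γ src tgt T) L (insert (.inr e) (σ.map ι)) (.inr e') := fun e e' σ k =>
    k.2 _ (Finset.mem_insert_self _ _)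
  have c1 : ∀ σ : Finset S, Γ.IsClique (σ : Set S) →
      (cone Γ src tgt T).IsClique ((σ.map ι : Finset _) : Set (S ⊕ Ed)) := by
    intro σ hσ a ha b hb n
    obtain ⟨s, hs, rfl⟩ := Finset.mem_map.1 ha
    obtain ⟨t, ht, rfl⟩ := Finset.mem_map.1 hb
    exact hσ hs ht fun e => n (congrArg _ e)
  have ex : ∀ e, e = e1 ∨ e = e2 → ∀ σ ∈ Q Γ (Tw j) ∅, ∃ τ, (cone Γ src tgt T).IsNClique 4 τ ∧
      insert (.inr e) (σ.map ι) ⊆ τ ∧ ↑τ ⊆ L := fun e he σ hσ => by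
    obtain ⟨σ', h1, h2⟩ := h.ext3 j hj σ hσ
    have := (k2 σ' ⟨h1.1, Finset.empty_subset _, h1.2.2⟩ e).2 he
    refine ⟨insert (.inr e) (σ'.map ι), ⟨this.clique (c1 _ h1.1), by rw [cd, h2]⟩,
      Finset.insert_subset_insert _ (Finset.map_subset_map.2 h1.2.1), ?_⟩
    rw [Finset.coe_insert]
    refine Set.insert_subset this.1 fun a ha => ?_
    obtain ⟨s, hs, rfl⟩ := Finset.mem_map.1 ha
    exact (hl s).2 (h1.2.2 hs)
  refine ⟨fun τ hτ hL => ?_, fun τ hτ hL => ?_, fun ρ hρ hL => ?_, fun τ hτ hL hc => ?_, fun a ha => ?_⟩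
  · obtain ⟨σ, hσ, rfl | ⟨e, he, rfl⟩⟩ := cs τ hτ hL <;> have := h.le3 j hj σ hσ
    · rw [Finset.card_map]; omega
    · rw [cd]; omega
  · obtain ⟨σ, hσ, rfl | ⟨e, he, rfl⟩⟩ := cs τ hτ hL
    · exact (ex e1 (.inl rfl) σ hσ).imp fun _ k => ⟨k.1, (Finset.subset_insert _ _).trans k.2.1, k.2.2⟩
    · exact ex e he σ hσ
  · obtain ⟨σ, hσ, rfl | ⟨e, he, rfl⟩⟩ := cs ρ hρ.1 hL
    · have hc : σ.card = 3 := by rw [← hρ.2, Finset.card_map]
      refine ⟨.inr e1, .inr e2, by simpa using ne, ?_⟩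
      rintro (s | e)
      · simp only [k1, reduceCtorEq, or_self, iff_false]
        intro k
        have := h.le3 j hj (insert s σ) ⟨k.clique hσ.1, Finset.empty_subset _, Finset.insert_subset k.1 hσ.2.2⟩
        rw [Finset.card_insert_of_notMem k.nmem] at this
        omega
      · simp [k2 σ hσ]
    · obtain ⟨a, a', n, ha⟩ := h.two3 j hj σ hσ (by have := hρ.2; rw [cd] at this; omega)
      refine ⟨.inl a, .inl a', by simpa using n, ?_⟩
      rintro (s | e')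
      · simp [k3 e he, ha]
      · simp [k4]
  · obtain ⟨σ, hσ, rfl | ⟨e, he, rfl⟩⟩ := cs τ hτ hL
    · rw [Finset.card_map] at hc
      obtain ⟨σ', h1, h2⟩ := h.ext3 j hj σ hσ
      obtain ⟨s0, -, h4⟩ := exists_lk (L := Tw j) h1.1 h1.2.1 (by omega) (Finset.coe_subset.2 h1.2.2)
      have w : ∀ e s, Lk (cone Γ src tgt T) L (σ.map ι) (.inr e) → Lk (cone Γ src tgt T) L (σ.map ι) (.inl s) →
          Wl src tgt T e s := fun e s a b => (hT e ((hr e).1 a.1) s).2 ((hl s).1 b.1)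
      have a0 := (k1 _ _).2 h4
      have a1 := (k2 σ hσ e1).2 (.inl rfl)
      rintro (s | e) (s' | e') a b
      · exact .tail (b := Sum.inr e1) (.single ⟨w _ _ a1 a, a1⟩) ⟨w _ _ a1 b, b⟩
      · exact .single ⟨w _ _ b a, b⟩
      · exact .single ⟨w _ _ a b, b⟩
      · exact .tail (b := Sum.inl s0) (.single ⟨w _ _ a a0, a0⟩) ⟨w _ _ b a0, b⟩
    · rw [cd] at hc
      rintro (s | e1) (s' | e2) hc hc'
      · exact (h.lk3 j hj σ hσ (by omega) s s' ((k3 e he _ _).1 hc) ((k3 e he _ _).1 hc')).lift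
          Sum.inl fun u v k => ⟨k.1, (k3 e he _ _).2 k.2⟩
      · exact (k4 _ _ _ hc').elim
      · exact (k4 _ _ _ hc).elim
      · exact (k4 _ _ _ hc).elim
  · refine (((Tw j).finite_toSet.image Sum.inl).union (toFinite {.inr e1, .inr e2})).subset ?_
    rintro (s | e) k
    · exact .inl ⟨s, (hl s).1 k.1, rfl⟩
    · exact .inr (by simpa using (hr e).1 k.1)

end susp

section model
open N255.Fa N233.Hyp N255.Ra N233.Lp

variable {S K F Nd Ed : Type} [DecidableEq S] [LinearOrder K] [Group F] [MulAction F Nd]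
  [MulAction F Ed] {M : Ce.Mir S K F Nd Ed}

theorem lc_mir [DecidableEq Ed] (L : Ch.Loc M) : Lc (cg M) (ed M) := by
  have wl : ∀ e s, Wl M.src M.tgt (Tm M) e s ↔ s ∈ M.sp (M.tgt e) := fun e s =>
    ⟨fun k => k.2, fun k => ⟨L.wall e k, k⟩⟩
  have P : ∀ x : Vt M, N233.Rg.Psm (cg M) {c | ∃ z, ed M x c z} := fun x => Psm.rg <| by
    by_cases t : M.ty x.2
    · obtain ⟨e, he⟩ := L.mid _ t
      refine psm_susp (chm L (M.ty_src e)) (j := e) rfl (L.op_ne e).symm (fun e' k s => ?_)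
        (fun s => (mst_inl x s).trans (by rw [he]; rfl)) fun e' => (mst_inr x e').trans ⟨fun k => ?_, fun k => .inr ?_⟩
      · rcases k with rfl | rfl
        · exact wl _ s
        · rw [wl, L.tgt_op]
      · exact L.tgt_eq _ _ (he.trans (k.resolve_left fun q => M.ty_src e' (q ▸ t)).symm)
      · rcases k with rfl | rfl
        exacts [he, (L.tgt_op e).trans he]
    · exact psm_cone (chm L t) (fun e _ => wl e) (mst_inl x) fun e => (mst_inr x e).trans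
        (or_iff_left fun q => t (q ▸ M.ty_tgt e))
  refine ⟨fun x a y h => ?_, fun x a y h c c' k k' => (P x).out_con ⟨y, h⟩ c k c' k',
    fun x a y b z h h' j => ?_⟩
  · obtain ⟨b, hb, j⟩ := (P x).e1 a ⟨y, h⟩
    obtain ⟨c, k⟩ := (P x).out_adj ⟨y, h⟩ hb j
    exact ⟨c, k.1, k.2.1, k.2.2.1⟩
  · obtain ⟨c, k⟩ := (P x).out_adj ⟨y, h⟩ ⟨z, h'⟩ j
    exact ⟨c, ⟨k.1, k.2.1, k.2.2.1⟩, k.2.2.2⟩

theorem mo_mir [Finite K] (G : Subgroup M.G) [G.FiniteIndex] (o : Vt M) :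
    Mo G (fun x y => ∃ a, ed M x a y) (dl M) where
  smul g := dl_smul g.1.1
  step x y k h := by
    obtain ⟨b, z, h1, h2⟩ := dl_step h
    exact ⟨z, ⟨b, h1⟩, h2⟩
  zero _ _ := eq_of_dl
  self := dl_self'
  one _ _ h := h.elim fun _ h => (dl_ed h).le
  comm := dl_comm'
  tri := dl_tri'
  ball := ball_fin
  free g x h := by
    have h : g.1.1 • x = x := h
    have r := M.free _ _ (congrArg Prod.snd h)
    rw [← SemidirectProduct.inl_left_mul_inr_right g.1.1, r, map_one, mul_one, inl_smul] at h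
    exact Subtype.ext (Subtype.ext (SemidirectProduct.ext (mul_eq_right.1 (congrArg Prod.fst h)) r))
  cof := by
    obtain ⟨d, hd⟩ := Fa.orb_dense G o
    refine ⟨_, ball_fin o d, fun x => (hd x).elim fun g h => ⟨g⁻¹, ?_⟩⟩
    rw [← dl_smul (g⁻¹).1.1] at h
    exact (congrArg (fun y => dl M y _ ≤ d) (inv_smul_smul g o)).mp h

end model

section slow
open Lv

variable {c : ℕ → ℕ} (s : Slow c)

theorem q_lt {n r : ℕ} (h : s.q n r < 1) : n = 0 ∨ 4 * n < r := by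
  by_contra k
  exact h.not_ge (s.one_le_q (by omega) (by omega))

theorem q_cmp {ε : ℝ} (hε : 0 < ε) : ∃ R, ∀ n r, R ≤ r → s.q n r < 1 → s.q n (r - n) ≤ s.q n r + ε := by
  obtain ⟨R, h⟩ := s.q_slow 1 hε 1
  refine ⟨2 * R, fun n r a b => ?_⟩
  have := q_lt s b
  exact h _ (by omega) n n r (by omega) (s.j_five (by omega)) b.le

end slow

open Tp Uc Wn Pt Fa Lv En Gs
open Wi (FR)

variable {ι S K : Type} [DecidableEq ι] [DecidableEq S] [MulAction (FreeGroup ι) S]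

section fex
variable {w : Wl ι S} {F : Subgroup (FreeGroup ι)} {X : Type} [TopologicalSpace X] [MulAction F X]
  {k : Type} [Field k]

omit [DecidableEq S] in
theorem fex_end (E : End w F k X) (m : Md w) (e : Ed ι) {a a' b' b : ℝ} (h0 : 0 < a) (h1 : a < a')
    (h2 : a' < b') (h3 : b' < b) (h4 : b < 1) : ∃ R', ∀ φ ∈ Cc k univ k 1,
    φ ∈ ((On (win (E.s e) a b)).inf (Sm E.cv)).Z k k 1 → ∃ (η : X → k) (R : ℝ),
      (∀ σ ∈ ((On (fw (E.s e) E.r a' b' R')).inf (Sm E.cv)).S 1, φ σ = η (vx σ 1) - η (vx σ 0)) ∧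
        ∀ x ∈ fw (E.s e) E.r a' b' R, η x = 0 := by
  obtain ⟨R2, H2⟩ := far_ex E (adm_tw (a' := (a + a') / 2) (b' := (b' + b) / 2) e h0 (by linarith) (by linarith)
    (by linarith) h4) 0
  refine ⟨R2, fun φ ⟨Q, q1, _, q2⟩ hz => ?_⟩
  obtain ⟨RQ, hQ⟩ := (q1.image E.r.continuous).bddAbove
  have v : ∀ R, RQ ≤ R → ∀ a b, φ ∈ (E.Sb (fw (E.s e) E.r a b R)).van k k 1 := fun R h a b σ hσ =>
    q2 σ fun y hy hq => (hQ ⟨y, hq, rfl⟩).not_gt (h.trans_lt (hσ.1 hy).1)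
  simp only [reg_tw] at H2
  obtain ⟨ψ, hψ⟩ := Sb.mem_Ex.1 (H2 0 zero_le_one k φ (fun σ h => hz σ ⟨fun y hy => (h.1 hy).2, h.2⟩) RQ
    (Submodule.mem_sup_right (v _ le_rfl _ _)))
  obtain ⟨R3, H3⟩ := far_zero E m (face_tw e) (adm_tw (a := (a + a') / 2) (b := (b' + b) / 2) e (by linarith)
    (by linarith) h2 (by linarith) (by linarith)) (max R2 RQ)
  simp only [reg_tw] at H3
  obtain ⟨c, hc⟩ := H3 k ψ fun σ h => by
    have := hψ σ ⟨fun y hy => ⟨(le_max_left _ _).trans_lt (h.1 hy).1, (h.1 hy).2⟩, h.2⟩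
    rwa [Pi.sub_apply, v _ (le_max_right _ _) _ _ σ h, zero_sub, neg_eq_zero] at this
  have p : ∀ σ : Sx 0 X, σ = ContinuousMap.const _ (vx σ 0) := fun σ =>
    ContinuousMap.ext fun t => congrArg σ (Subsingleton.elim _ _)
  refine ⟨fun x => ψ (ContinuousMap.const _ x) - c, R3, fun σ h => ?_, fun x hx => hc _ ?_⟩
  · have := hψ σ ⟨fun y hy => ⟨(h.1 hy).1, by linarith [(h.1 hy).2.1], by linarith [(h.1 hy).2.2]⟩, h.2⟩
    rw [Pi.sub_apply, sub_eq_zero, show ψ = fun σ => ψ (ContinuousMap.const _ (vx σ 0)) from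
      funext fun σ => congrArg ψ (p σ), cob_edge (fun x => ψ (ContinuousMap.const _ x))] at this
    rw [this, sub_sub_sub_cancel_right]
  · rintro _ ⟨t, rfl⟩; exact hx

end fex

variable {M : Ce.Mir S K (FreeGroup ι) (Nd ι) (Ed ι)} {w : Wl ι S} (Z : TM M w)
  [Nonempty S] [Finite ι] [LinearOrder K] [Finite K] {G : Subgroup M.G} {F : Subgroup (FreeGroup ι)}
  {T : Type} [TopologicalSpace T] [MulAction G T] [ContinuousConstSMul G T] [MulAction F T] {c : ℕ → ℕ}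
  {K₀ : Set T} (h : FD 4 G K₀) (E : Av G F T) (s : Slow c)

omit [Finite K] [ContinuousConstSMul G T] in
theorem cmp {Q : Set T} (hQ : IsCompact Q) (D : ℕ) {ε : ℝ} (hε : 0 < ε) : ∃ (R : ℝ) (d : ℕ), ∀ x v,
    Bd G (dl M) E.o Q D {x} v → |E.rr x - rad M v| ≤ d ∧
      (R < E.rr x → ∀ e, |Z.sT E s e x - (Z.cut s).H e v| ≤ ε) := by
  have hK := hQ.union E.P.cpt
  obtain ⟨d, h1⟩ := E.rr_near hK
  obtain ⟨R1, h2⟩ := E.sv (Z.sv_H s) hK (half_pos hε)
  obtain ⟨R2, h3⟩ := Z.H_slow s (half_pos hε) D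
  obtain ⟨R3, h4⟩ := E.far hK R2
  refine ⟨max R1 R3, d + D, fun x v ⟨g, a, b⟩ => ?_⟩
  have n : Nr G (Q ∪ E.P.K) x (g • (E.g x)⁻¹ • x) := ⟨g, .inl (mem_smul_set_iff_inv_smul_mem.1 (a rfl)),
    .inr (by rw [inv_smul_smul]; exact E.mem x)⟩
  have u : ob E.o g ∈ E.Vs (g • (E.g x)⁻¹ • x) := ⟨g, by simpa [Pu.lab] using E.mem x, rfl⟩
  have b : dl M (ob E.o g) v ≤ D := b
  refine ⟨?_, fun k e => ?_⟩
  · have a1 := abs_le.1 (h1 _ _ n _ u)
    have a2 := rad_lip (ob E.o g) v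
    have a3 := rad_lip v (ob E.o g)
    rw [dl_comm'] at a3
    have a4 : (rad M v : ℝ) ≤ rad M (ob E.o g) + D := by exact_mod_cast (by omega)
    have a5 : (rad M (ob E.o g) : ℝ) ≤ rad M v + D := by exact_mod_cast (by omega)
    push_cast
    exact abs_le.2 ⟨by linarith, by linarith⟩
  · exact (abs_sub_le _ _ _).trans ((add_le_add (h2 _ _ ((le_max_left _ _).trans_lt k) n _ u e)
      (h3 _ _ (h4 _ _ ((le_max_right _ _).trans_lt k) n _ u) b e)).trans_eq (add_halves ε))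

omit [Finite K] [LinearOrder K] in
theorem H_mu {e : Ed ι} (he : e.k.2 = true) {v : Vt M} (r : 0 < rad M v)
    (k : (0 < (Z.cut s).H e v ∧ (Z.cut s).H e v < 1) ∨ (0 < mu M s (w.B e) v ∧ mu M s (w.B e) v < 1)) :
    (Z.cut s).H e v = mu M s (w.B e) v := by
  have a := (Z.cut s).clamp e v
  rw [Z.h_true s he r] at a
  rcases k with k | k
  · rw [min_eq_right k.2.le, max_eq_right k.1.le] at a
    exact a.trans (min_eq_right (not_lt.1 fun n => by rw [min_eq_left n.le] at a; linarith [k.2]))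
  · rw [min_eq_right k.2.le] at a
    rcases le_total ((Z.cut s).H e v) 0 with p | p
    · rw [max_eq_left ((min_le_right _ _).trans p)] at a; linarith [k.1]
    · rw [max_eq_right (le_min zero_le_one p)] at a
      rcases le_total 1 ((Z.cut s).H e v) with q | q
      · rw [min_eq_left q] at a; linarith [k.2]
      · rwa [min_eq_right q] at a

include h in
theorem zone_pos [G.FiniteIndex] (Lo : Ch.Loc M) {k : Type} [Field k] (X : End w F k T)
    (hX : X.toLev = levG Z h E s) (m : Md w) {e : Ed ι} (he : e.k.2 = true) {l0 l b b0 : ℝ}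
    (h0 : 0 < l0) (h1 : l0 < l) (h2 : l < b) (h3 : b < b0) (h4 : b0 < 1) :
    ∃ (Y : Sb T) (Q : Set T), IsCompact Q ∧ (X.Sb (win (X.s e) l b)).Le Y ∧
      (∀ n, ∀ σ ∈ Y.S n, (range σ ⊆ win (X.s e) l0 b0 ∧
        (range σ ⊆ lo (X.s e) b ∨ range σ ⊆ hi (X.s e) l)) ∧ ∃ g : G, range σ ⊆ g • Q) ∧
      FR (Cc k univ k 1 ⊓ Y.Z k k 1) ((Cc k univ k 0).map (cob k) ⊔ Y.van k k 1) := by
  have := gm_countable h.gm
  have u : Us (fun x y => ∃ a, ed M x a y) _ (ds M (w.B e)) fun x => rad M x - ds M (w.B e) x :=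
    us_lab (lab M) (lc_mir Lo) ⟨_, core_mem univ E.o.2⟩ (KV_anti (subset_univ (w.B e)))
  have es : X.s e = Z.sT E s e := by rw [hX]; rfl
  have er : X.r = E.rr := by rw [hX]; rfl
  have ec : X.cv = FD.cvr G K₀ := by rw [hX]; rfl
  refine zone (o := E.o) (θ := fun r => r + 1) (r := X.r)
    (lv := fun x => s.q (ds M (w.B e) x) (rad M x - ds M (w.B e) x)) h.gm (mo_mir G E.o) u (fun ε hε => ?_)
    ⟨X.cv_open, X.cv_cover, ⟨K₀, h.cpt, ?_⟩, fun Q hQ ε hε => ?_, fun Q hQ D ε hε R1 => ?_,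
      fun Q hQ D ε hε R => ?_, box_cpt X.toLev e, fun a a' b' b => fex_end X m e⟩ h0 h1 h2 h3 h4
  · obtain ⟨R0, H⟩ := s.q_slow 1 hε 2
    refine ⟨R0, fun R hR => ⟨fun x y j => ?_, fun x y ⟨a, j⟩ _ k1 k2 => ?_, fun x => s.q_pos.1,
      fun x k => by have := q_lt s k; omega⟩⟩
    · obtain ⟨-, a1, a2⟩ := u.up x y j
      exact s.q_mono (by omega) a2.le
    · have a1 := ds_lip (w.B e) x y
      have a2 := rad_lip y x
      rw [dl_comm'] at a2
      rw [dl_ed j] at a1 a2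
      exact H _ (hR.trans k1) _ _ _ (s.lam_le (by omega)) (s.j_le' (by omega)) k2
  · rw [ec]
    rintro _ ⟨g, rfl⟩
    exact ⟨g, fun x hx => mem_smul_set_iff_inv_smul_mem.2 (interior_subset (by simpa [sat] using hx))⟩
  · rw [es, er]
    exact (E.sv2 (Z.sv_H s) hQ hε).imp fun R H g x hx y hy r => H x y r
      ⟨g, mem_smul_set_iff_inv_smul_mem.1 hx, mem_smul_set_iff_inv_smul_mem.1 hy⟩ e
  · rw [es, er]
    obtain ⟨R, d, H⟩ := cmp Z E s hQ D (half_pos hε)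
    obtain ⟨R2, H2⟩ := q_cmp s (half_pos hε)
    refine ⟨max R (d + (R2 + 2 * R1 + 1 : ℕ)), fun x v j r a1 a2 => ?_⟩
    obtain ⟨b1, b2⟩ := H x v j
    have b2 := abs_le.1 (b2 ((le_max_left _ _).trans_lt r) e)
    have b3 : R2 + 2 * R1 + 1 ≤ rad M v := by
      exact_mod_cast (show ((R2 + 2 * R1 + 1 : ℕ) : ℝ) ≤ rad M v by
        linarith [(abs_le.1 b1).2, (le_max_right _ _).trans_lt r])
    have b4 := H_mu Z s he (v := v) (by omega) (.inl ⟨by linarith, by linarith⟩)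
    have b5 : mu M s (w.B e) v < 1 := by linarith
    have b6 := H2 _ _ (by omega) b5
    have b7 := s.q_mono (le_refl (ds M (w.B e) v)) (Nat.sub_le (rad M v) (ds M (w.B e) v))
    have := q_lt s b5
    rw [mu] at b4
    exact ⟨by omega, abs_le.2 ⟨by linarith, by linarith⟩⟩
  · rw [es, er]
    obtain ⟨R', d, H⟩ := cmp Z E s hQ D (half_pos hε)
    obtain ⟨R2, H2⟩ := q_cmp s (half_pos hε)
    refine ⟨R2 + d + ⌈max R R'⌉₊ + 1, fun x v j r a1 a2 => ?_⟩
    obtain ⟨b1, b2⟩ := H x v j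
    have b3 : max R R' < E.rr x := by
      have : ((d + ⌈max R R'⌉₊ + 1 : ℕ) : ℝ) ≤ rad M v := by exact_mod_cast (by omega)
      push_cast at this
      linarith [(abs_le.1 b1).1, Nat.le_ceil (max R R')]
    have b2 := abs_le.1 (b2 ((le_max_right _ _).trans_lt b3) e)
    have b7 := s.q_mono (le_refl (ds M (w.B e) v)) (Nat.sub_le (rad M v) (ds M (w.B e) v))
    have b5 : s.q (ds M (w.B e) v) (rad M v) < 1 := by linarith
    have b6 := H2 _ _ (by omega) b5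
    have b4 := H_mu Z s he (v := v) (by omega) (.inr ⟨by rw [mu]; linarith, b5⟩)
    rw [mu] at b4
    exact ⟨(le_max_left _ _).trans_lt b3, abs_le.2 ⟨by linarith, by linarith⟩⟩

end Crest.Agent.N255.Kf
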