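import Crest.Agent.N255.Kf.Cell

/-!
# Row 255 (helper1): the net (cells and model vertices), the family `Xe`, gluing potentials
-/

set_option autoImplicit false
open Set Filter Topology
open scoped Pointwise

noncomputable section

namespace Crest.Agent.N255.Kf

open Tp Uc

/-- a locally finite graph with a free cocompact action -/
structure Mo (G : Type) {V : Type} [Group G] [MulAction G V] (adj : V → V → Prop) (dl : V → V → ℕ) :
    Prop where
  smul : ∀ (g : G) x y, dl (g • x) (g • y) = dl x y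
  step : ∀ x y k, dl x y = k + 1 → ∃ z, adj y z ∧ dl x z = k
  zero : ∀ x y, dl x y = 0 → x = y
  self : ∀ x, dl x x = 0
  one : ∀ x y, adj x y → dl x y ≤ 1
  comm : ∀ x y, dl x y = dl y x
  tri : ∀ x y z, dl x z ≤ dl x y + dl y z
  ball : ∀ x R, {y | dl x y ≤ R}.Finite
  free : ∀ (g : G) (x : V), g • x = x → g = 1
  cof : ∃ B : Set V, B.Finite ∧ ∀ x, ∃ g : G, g • x ∈ B

/-- indices of cells -/
@[ext] structure Ci (G I : Type) where
  g : G
  i : I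

instance {G I : Type} [Group G] : MulAction G (Ci G I) where
  smul h c := ⟨h * c.g, c.i⟩
  one_smul _ := Ci.ext (one_mul _) rfl
  mul_smul _ _ _ := Ci.ext (mul_assoc _ _ _) rfl

variable {G T V I : Type} [Group G] [TopologicalSpace T] [MulAction G T] [MulAction G V] {d n : ℕ}
  {adj : V → V → Prop} {dl : V → V → ℕ} {K : Set T} {U : I → Set T} {𝒲 : Set (Set T)} {o : V}

/-- cells -/
def cell (U : I → Set T) (c : Ci G I) : Set T := c.g • U c.i

omit [TopologicalSpace T] in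
theorem cell_smul (g : G) (c : Ci G I) : cell U (g • c) = g • cell U c := mul_smul _ _ _

/-- model vertices of net points -/
def nu (o : V) : Ci G I ⊕ V → V
  | .inl c => c.g • o
  | .inr v => v

theorem nu_smul (g : G) (x : Ci G I ⊕ V) : nu o (g • x) = g • nu o x := by
  cases x
  exacts [mul_smul _ _ _, rfl]

variable (G) in
/-- the set `A` is bounded and close to `v` -/
def Bd (dl : V → V → ℕ) (o : V) (K : Set T) (D : ℕ) (A : Set T) (v : V) : Prop :=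
  ∃ g : G, A ⊆ g • K ∧ dl (g • o) v ≤ D

omit [TopologicalSpace T] in
theorem Bd.mono {D : ℕ} {A A' : Set T} {v : V} (h : Bd G dl o K D A v) (k : A' ⊆ A) : Bd G dl o K D A' v :=
  h.imp fun _ h => ⟨k.trans h.1, h.2⟩

theorem Mo.fib (m : Mo G adj dl) (v : V) (R : ℕ) : {g : G | dl (g • o) v ≤ R}.Finite :=
  Finite.of_finite_image ((m.ball v R).subset (by rintro _ ⟨g, hg, rfl⟩; rwa [mem_ofPred, m.comm]))
    (f := fun g : G => g • o) fun a _ b _ e =>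
      (inv_mul_eq_one.1 (m.free (b⁻¹ * a) o (by rw [mul_smul]; exact inv_smul_eq_iff.2 e))).symm

theorem Mo.fibN [Finite I] (m : Mo G adj dl) (v : V) (R : ℕ) :
    {x : Ci G I ⊕ V | dl (nu o x) v ≤ R}.Finite := by
  refine ((((m.fib (o := o) v R).prod (finite_univ (α := I))).image fun p => Sum.inl ⟨p.1, p.2⟩).union
    ((m.ball v R).image Sum.inr)).subset ?_
  rintro (c | w) h
  · exact .inl ⟨(c.g, c.i), ⟨h, trivial⟩, rfl⟩
  · exact .inr ⟨w, by rwa [mem_ofPred, m.comm], rfl⟩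

theorem Mo.freeN (m : Mo G adj dl) (g : G) (x : Ci G I ⊕ V) (e : g • x = x) : g = 1 := by
  cases x with
  | inl c => exact mul_eq_right.1 (congrArg Ci.g (Sum.inl_injective e))
  | inr v => exact m.free g v (Sum.inr_injective e)

variable [ContinuousConstSMul G T]

theorem Mo.bd (m : Mo G adj dl) {N : Type} [MulAction G N] (f : N → Sx n T)
    (hf : ∀ (g : G) x, f (g • x) = g • f x) (β : N → V) (hβ : ∀ (g : G) x, β (g • x) = g • β x)
    (Re : N → Prop) (hR : ∀ (g : G) x, Re x → Re (g • x)) (fin : ∀ v, {x | Re x ∧ β x = v}.Finite) :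
    ∃ K D, IsCompact K ∧ ∀ x, Re x → Bd G dl o K D (range (f x)) (β x) := by
  obtain ⟨B, hB, hc⟩ := m.cof
  have f1 : {x | Re x ∧ β x ∈ B}.Finite := (hB.biUnion fun v _ => fin v).subset fun x h =>
    mem_biUnion h.2 ⟨h.1, rfl⟩
  obtain ⟨D, hD⟩ := (hB.image (dl o)).bddAbove
  refine ⟨⋃ x ∈ {x | Re x ∧ β x ∈ B}, range (f x), D,
    f1.isCompact_biUnion fun x _ => isCompact_range (f x).continuous, fun x h => ?_⟩
  obtain ⟨g, hg⟩ := hc (β x)
  refine ⟨g⁻¹, fun y hy => mem_smul_set_iff_inv_smul_mem.2 (mem_biUnion (x := g • x)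
    ⟨hR g x h, by rwa [hβ]⟩ ?_), ?_⟩
  · rw [hf, range_smul, inv_inv]; exact smul_mem_smul_set hy
  · rw [← m.smul g, smul_inv_smul]; exact hD ⟨_, hg, rfl⟩

variable (G dl K U 𝒲 o) in
/-- the net -/
structure Nt where
  pt : Ci G I ⊕ V → T
  ed : Ci G I ⊕ V → Ci G I ⊕ V → Sx 1 T
  D : ℕ
  K' : Set T
  D' : ℕ
  cpt : IsCompact K'
  two : 2 ≤ D
  sub : K ⊆ K'
  pt_in : ∀ c, pt (.inl c) ∈ cell U c
  inj : ∀ v w, pt (.inr v) = pt (.inr w) → v = w
  e0 : ∀ x y, vx (ed x y) 0 = pt x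
  e1 : ∀ x y, vx (ed x y) 1 = pt y
  link : ∀ c c', (cell U c ∩ cell U c').Nonempty → dl (c.g • o) (c'.g • o) ≤ D ∧
    ∃ W ∈ 𝒲, cell U c ∪ cell U c' ⊆ W ∧ range (ed (.inl c) (.inl c')) ⊆ W
  inn : ∀ c v, pt (.inr v) ∈ cell U c → dl (c.g • o) v ≤ D ∧ range (ed (.inl c) (.inr v)) ⊆ cell U c
  tri : ∀ x y z, dl (nu o x) (nu o z) ≤ D → dl (nu o y) (nu o z) ≤ D → ∃ σ : Sx 2 T, fc σ 0 = ed y z ∧
    fc σ 1 = ed x z ∧ fc σ 2 = ed x y ∧ Bd G dl o K' D' (range σ) (nu o z)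

theorem exists_nt [Finite I] [Countable G] (h : GM (d + 1) G T) (m : Mo G adj dl) (hK : IsCompact K)
    (c : Cl G K U 𝒲) : Nonempty (Nt G dl K U 𝒲 o) := by
  have := uncountable_of h
  obtain ⟨B, hB, hc⟩ := m.cof
  obtain ⟨a, ia, ha⟩ := exists_inj (Y := T) m.free h.free hB hc
  choose ct hct using c.ne
  let pt : Ci G I ⊕ V → T := Sum.elim (fun c => c.g • ct c.i) a
  have hpt : ∀ (g : G) x, pt (g • x) = g • pt x := by
    rintro g (x | x)
    exacts [mul_smul _ _ _, ha g x]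
  have pin : ∀ x, pt (.inl x) ∈ cell U x := fun x => smul_mem_smul_set (hct x.i)
  obtain ⟨ed, he, hed⟩ := exists_eqv (G := G) (N := (Ci G I ⊕ V) × (Ci G I ⊕ V)) (Y := Sx 1 T)
    (fun g x e => m.freeN g x.1 (congrArg Prod.fst e))
    (fun x e => vx e 0 = pt x.1 ∧ vx e 1 = pt x.2 ∧
      (∀ u u', x = (.inl u, .inl u') → (cell U u ∩ cell U u').Nonempty →
        ∃ W ∈ 𝒲, cell U u ∪ cell U u' ⊆ W ∧ range e ⊆ W) ∧
      ∀ u v, x = (.inl u, .inr v) → a v ∈ cell U u → range e ⊆ cell U u)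
    (by
      rintro g x e ⟨h1, h2, h3, h4⟩
      refine ⟨by rw [vx_smul, h1, ← hpt]; rfl, by rw [vx_smul, h2, ← hpt]; rfl, fun u u' e k => ?_,
        fun u v e k => ?_⟩
      · obtain ⟨W, a1, a2, a3⟩ := h3 (g⁻¹ • u) (g⁻¹ • u') (eq_inv_smul_iff.2 e) (by
          rw [cell_smul, cell_smul, ← smul_set_inter]; exact k.smul_set)
        refine ⟨g • W, c.inv g W a1, ?_, range_smul_sub a3⟩
        rwa [cell_smul, cell_smul, ← smul_set_union, ← subset_smul_set_iff] at a2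
      · have := range_smul_sub (g := g) (h4 (g⁻¹ • u) (g⁻¹ • v) (eq_inv_smul_iff.2 e) (by
          rw [cell_smul, ha]; exact smul_mem_smul_set k))
        rwa [cell_smul, smul_inv_smul] at this)
    (by
      have u0 := fun x y => (fil_univ h).edge x trivial y trivial
      rintro ⟨u | u, v | v⟩
      · by_cases k : (cell U u ∩ cell U v).Nonempty
        · obtain ⟨W, a1, a2⟩ := c.star _ _ _ _ k
          obtain ⟨e, b1, b2, b3⟩ := (c.filW W a1).edge _ (a2 (.inl (pin u))) _ (a2 (.inr (pin v)))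
          exact ⟨e, b2, b3, by rintro _ _ ⟨⟩ _; exact ⟨W, a1, a2, b1⟩, by rintro _ _ ⟨⟩⟩
        · obtain ⟨e, -, b2, b3⟩ := u0 (pt (.inl u)) (pt (.inl v))
          exact ⟨e, b2, b3, by rintro _ _ ⟨⟩ k'; exact (k k').elim, by rintro _ _ ⟨⟩⟩
      · by_cases k : a v ∈ cell U u
        · obtain ⟨e, b1, b2, b3⟩ := (fil_smul (c.fil u.i) u.g).edge _ (pin u) _ k
          exact ⟨e, b2, b3, by rintro _ _ ⟨⟩, by rintro _ _ ⟨⟩ _; exact b1⟩
        · obtain ⟨e, -, b2, b3⟩ := u0 (pt (.inl u)) (a v)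
          exact ⟨e, b2, b3, by rintro _ _ ⟨⟩, by rintro _ _ ⟨⟩ k'; exact (k k').elim⟩
      · obtain ⟨e, -, b2, b3⟩ := u0 (a u) (pt (.inl v))
        exact ⟨e, b2, b3, by rintro _ _ ⟨⟩, by rintro _ _ ⟨⟩⟩
      · obtain ⟨e, -, b2, b3⟩ := u0 (a u) (a v)
        exact ⟨e, b2, b3, by rintro _ _ ⟨⟩, by rintro _ _ ⟨⟩⟩)
  obtain ⟨tr, ht, htr⟩ := exists_eqv (G := G) (N := (Ci G I ⊕ V) × (Ci G I ⊕ V) × (Ci G I ⊕ V))
    (Y := Sx 2 T) (fun g x e => m.freeN g x.1 (congrArg Prod.fst e))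
    (fun x σ => fc σ 0 = ed (x.2.1, x.2.2) ∧ fc σ 1 = ed (x.1, x.2.2) ∧ fc σ 2 = ed (x.1, x.2.1))
    (by
      rintro g x σ ⟨h1, h2, h3⟩
      refine ⟨?_, ?_, ?_⟩ <;> rw [fc_smul]
      exacts [by rw [h1, ← hed]; rfl, by rw [h2, ← hed]; rfl, by rw [h3, ← hed]; rfl])
    (fun x => ((fil_univ h).tri _ (ed (x.1, x.2.2)) _ (subset_univ _) (subset_univ _) (subset_univ _)
      ((he _).1.trans (he (x.1, x.2.1)).1.symm) ((he _).2.1.trans (he (x.2.1, x.2.2)).1.symm)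
      ((he _).2.1.trans (he (x.2.1, x.2.2)).2.1.symm)).imp fun _ k => k.2)
  obtain ⟨D1, hD1⟩ := ((h.prp K K hK hK).image fun g : G => dl o (g • o)).bddAbove
  obtain ⟨D2, hD2⟩ := (((h.prp K (a '' B) hK (hB.image a).isCompact).prod hB).image
    fun p : G × V => dl (p.1 • o) p.2).bddAbove
  obtain ⟨K', D', hK', hb⟩ := m.bd (o := o) tr htr (fun x => nu o x.2.2) (fun g x => nu_smul g _)
    (fun x => dl (nu o x.1) (nu o x.2.2) ≤ D1 + D2 + 2 ∧ dl (nu o x.2.1) (nu o x.2.2) ≤ D1 + D2 + 2)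
    (fun g x k => by simpa only [Prod.smul_fst, Prod.smul_snd, nu_smul, m.smul] using k)
    fun v => ((m.fibN (o := o) v (D1 + D2 + 2)).prod ((m.fibN (o := o) v (D1 + D2 + 2)).prod
      (m.fibN (o := o) v 0))).subset (by
        rintro x ⟨⟨a1, a2⟩, rfl⟩
        exact ⟨a1, a2, (m.self _).le⟩)
  refine ⟨⟨pt, fun x y => ed (x, y), D1 + D2 + 2, K ∪ K', D', hK.union hK', by omega, subset_union_left,
    pin, fun _ _ e => ia e, fun x y => (he _).1, fun x y => (he _).2.1, fun u u' k => ⟨?_, (he _).2.2.1 _ _ rfl k⟩,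
    fun u v k => ⟨?_, (he _).2.2.2 _ _ rfl k⟩, fun x y z a1 a2 => ?_⟩⟩
  · obtain ⟨_, ⟨x, a1, rfl⟩, y, a2, a3⟩ := k
    have := hD1 ⟨u.g⁻¹ * u'.g, ⟨y, c.sub _ a2, by
      rw [mul_smul, show u'.g • y = u.g • x from a3, inv_smul_smul]; exact c.sub _ a1⟩, rfl⟩
    rw [← m.smul u.g⁻¹, inv_smul_smul, smul_smul]
    beta_reduce at this
    omega
  · obtain ⟨x, a1, a2⟩ := k
    obtain ⟨g, hg⟩ := hc v
    have := hD2 ⟨(g * u.g, g • v), ⟨⟨x, c.sub _ a1, g • v, hg, by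
      rw [ha, mul_smul, show u.g • x = a v from a2]⟩, hg⟩, rfl⟩
    simp only [mul_smul, m.smul] at this
    omega
  · obtain ⟨g, b1, b2⟩ := hb (x, y, z) ⟨a1, a2⟩
    exact ⟨tr (x, y, z), (ht _).1, (ht _).2.1, (ht _).2.2, g,
      b1.trans (smul_set_mono subset_union_right), b2⟩

variable (U) in
/-- admissible net points -/
def In (A : Set T) (S : Set V) : Ci G I ⊕ V → Prop
  | .inl c => (cell U c ∩ A).Nonempty
  | .inr v => v ∈ S

namespace Nt
variable (N : Nt G dl K U 𝒲 o) (adj) (A : Set T) (S : Set V) (Sz : Set T → Prop)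

/-- admissible pairs -/
def Al : Ci G I ⊕ V → Ci G I ⊕ V → Prop
  | .inl c, .inl c' => (cell U c ∩ A).Nonempty ∧ (cell U c' ∩ A).Nonempty ∧ (cell U c ∩ cell U c').Nonempty
  | .inl c, .inr v => (cell U c ∩ A).Nonempty ∧ v ∈ S ∧ dl (c.g • o) v ≤ N.D
  | .inr v, .inr w => v ∈ S ∧ w ∈ S ∧ (v = w ∨ adj v w ∨ ∃ z ∈ S, adj v z ∧ adj z w)
  | .inr _, .inl _ => False

/-- admissible edges -/
def Eg : Set (Sx 1 T) :=
  {e | (∃ c : Ci G I, (cell U c ∩ A).Nonempty ∧ range e ⊆ cell U c) ∨ ∃ x y, N.Al adj A S x y ∧ e = N.ed x y}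

/-- admissible vertices -/
def Vx : Set T := {p | (∃ c : Ci G I, (cell U c ∩ A).Nonempty ∧ p ∈ cell U c) ∨ ∃ v ∈ S, p = N.pt (.inr v)}

variable {adj A S} in
omit [ContinuousConstSMul G T] in
theorem Al.inn {x y : Ci G I ⊕ V} (h : N.Al adj A S x y) : In U A S x ∧ In U A S y := by
  rcases x with x | x <;> rcases y with y | y
  exacts [⟨h.1, h.2.1⟩, ⟨h.1, h.2.1⟩, h.elim, ⟨h.1, h.2.1⟩]

variable {A S} in
omit [ContinuousConstSMul G T] in
theorem pt_mem {x : Ci G I ⊕ V} (h : In U A S x) : N.pt x ∈ N.Vx A S := by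
  cases x with
  | inl c => exact .inl ⟨c, h, N.pt_in c⟩
  | inr v => exact .inr ⟨v, h, rfl⟩

/-- the extra simplices -/
def Xe : Sb T where
  S n := match n with
    | 0 => {p | vx p 0 ∈ N.Vx A S}
    | 1 => N.Eg adj A S
    | 2 => {σ | Sz (range σ) ∧ ∀ i, fc σ i ∈ N.Eg adj A S}
    | _ + 3 => ∅
  fc_mem n := match n with
    | 0 => fun e i h => by
      show vx (fc e i) 0 ∈ N.Vx A S
      rw [fc, vx_sub]
      rcases h with ⟨c, a, b⟩ | ⟨x, y, a, rfl⟩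
      · exact .inl ⟨c, a, vx_mem b _⟩
      · fin_cases i
        exacts [N.e1 x y ▸ N.pt_mem a.inn.2, N.e0 x y ▸ N.pt_mem a.inn.1]
    | 1 => fun _ i h => h.2 i
    | _ + 2 => fun _ _ h => h.elim

variable {adj A S Sz} {k : Type} [CommRing k] {M : Type} [AddCommGroup M] [Module k M] {φ : Co M 1 T}

omit [ContinuousConstSMul G T] in
theorem add (h : φ ∈ (N.Xe adj A S Sz).Z k M 1) {σ : Sx 2 T} (s : Sz (range σ)) {a b c : Sx 1 T}
    (e0 : fc σ 0 = a) (e1 : fc σ 1 = b) (e2 : fc σ 2 = c) (ha : a ∈ N.Eg adj A S) (hb : b ∈ N.Eg adj A S)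
    (hc : c ∈ N.Eg adj A S) : φ c + φ a = φ b := by
  have := h σ ⟨s, fun i => by fin_cases i; exacts [e0 ▸ ha, e1 ▸ hb, e2 ▸ hc]⟩
  rw [cob_tri, e0, e1, e2] at this
  rw [← sub_eq_zero, ← this]; abel

/-- **gluing**: a potential on the net extends -/
theorem glue [Finite I] (g : GM d G T) (hK : IsCompact K) (c : Cl G K U 𝒲)
    (hm : ∀ X Y, X ⊆ Y → Sz Y → Sz X) (hW : ∀ W ∈ 𝒲, (W ∩ A).Nonempty → Sz W)
    {𝒞 : Set (Set T)} (h0 : φ ∈ Cc k univ M 1)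
    (h1 : φ ∈ (((On A).inf (Sm 𝒞)).sup (N.Xe adj A S Sz)).Z k M 1) (H : Ci G I ⊕ V → M)
    (hf : {x | In U A S x ∧ H x ≠ 0}.Finite)
    (hH : ∀ x y, N.Al adj A S x y → φ (N.ed x y) = H y - H x) :
    φ ∈ (Cc k univ M 0).map (cob k) ⊔ (((On A).inf (Sm 𝒞)).sup (N.Xe adj A S Sz)).van k M 1 := by
  classical
  have hX : φ ∈ (N.Xe adj A S Sz).Z k M 1 := fun σ h => h1 σ (.inr h)
  have fc' : ∀ u : Ci G I, Fil (cell U u) := fun u => fil_smul (c.fil u.i) u.g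
  have a0 : ∀ W ∈ 𝒲, (W ∩ A).Nonempty → ∀ a b e : Sx 1 T, range a ⊆ W → range b ⊆ W → range e ⊆ W →
      vx b 0 = vx e 0 → vx e 1 = vx a 0 → vx b 1 = vx a 1 → a ∈ N.Eg adj A S → b ∈ N.Eg adj A S →
      e ∈ N.Eg adj A S → φ e + φ a = φ b := fun W w n a b e r1 r2 r3 v1 v2 v3 m1 m2 m3 => by
    obtain ⟨σ, s, s0, s1, s2⟩ := (c.filW W w).tri a b e r1 r2 r3 v1 v2 v3
    exact N.add hX (hm _ _ s (hW W w n)) s0 s1 s2 m1 m2 m3
  have a1 : ∀ u : Ci G I, (cell U u ∩ A).Nonempty → ∀ a b e : Sx 1 T, range a ⊆ cell U u →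
      range b ⊆ cell U u → range e ⊆ cell U u → vx b 0 = vx e 0 → vx e 1 = vx a 0 → vx b 1 = vx a 1 →
      φ e + φ a = φ b := fun u n a b e r1 r2 r3 v1 v2 v3 => by
    obtain ⟨W, w, s⟩ := c.star u.g u.g u.i u.i (by rw [inter_self]; exact n.mono inter_subset_left)
    replace s : cell U u ⊆ W := subset_union_left.trans s
    exact a0 W w (n.mono (inter_subset_inter_left _ s)) a b e (r1.trans s) (r2.trans s) (r3.trans s)
      v1 v2 v3 (.inl ⟨u, n, r1⟩) (.inl ⟨u, n, r2⟩) (.inl ⟨u, n, r3⟩)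
  have : ∀ (u : Ci G I) x, ∃ e : Sx 1 T, x ∈ cell U u → range e ⊆ cell U u ∧ vx e 0 = N.pt (.inl u) ∧
      vx e 1 = x := fun u x => by
    by_cases k : x ∈ cell U u
    · exact ((fc' u).edge _ (N.pt_in u) x k).imp fun _ a _ => a
    · exact ⟨cst 1 x, fun h => (k h).elim⟩
  choose sp hsp using this
  let η : T → M := fun x =>
    if h : ∃ u : Ci G I, (cell U u ∩ A).Nonempty ∧ x ∈ cell U u then H (.inl h.choose) + φ (sp h.choose x)
    else if h : ∃ v ∈ S, x = N.pt (.inr v) then H (.inr h.choose) else 0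
  have a2 : ∀ u : Ci G I, (cell U u ∩ A).Nonempty → ∀ e : Sx 1 T, range e ⊆ cell U u →
      vx e 0 = N.pt (.inl u) → η (vx e 1) = H (.inl u) + φ e := fun u n e r v => by
    have h : ∃ u : Ci G I, (cell U u ∩ A).Nonempty ∧ vx e 1 ∈ cell U u := ⟨u, n, vx_mem r 1⟩
    obtain ⟨n', m'⟩ := h.choose_spec
    obtain ⟨s1, s2, s3⟩ := hsp _ _ m'
    have al : N.Al adj A S (.inl u) (.inl h.choose) := ⟨n, n', _, vx_mem r 1, m'⟩
    obtain ⟨-, W, w, b1, b2⟩ := N.link u h.choose al.2.2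
    have := a0 W w (n.mono (inter_subset_inter_left _ (subset_union_left.trans b1))) _ e _
      (s1.trans (subset_union_right.trans b1)) (r.trans (subset_union_left.trans b1)) b2
      (v.trans (N.e0 _ _).symm) ((N.e1 _ _).trans s2.symm) s3.symm (.inl ⟨_, n', s1⟩) (.inl ⟨u, n, r⟩)
      (.inr ⟨_, _, al, rfl⟩)
    rw [show η (vx e 1) = _ from dif_pos h, ← this, hH _ _ al]
    abel
  have a3 : ∀ x, In U A S x → η (N.pt x) = H x := by
    rintro (u | v) n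
    · have r := range_cst (n := 1) (N.pt_in u)
      have := a1 u n _ _ _ r r r rfl rfl rfl
      rw [show η (N.pt (.inl u)) = _ from a2 u n _ r rfl, add_eq_left.1 this, add_zero]
    · by_cases h : ∃ u : Ci G I, (cell U u ∩ A).Nonempty ∧ N.pt (.inr v) ∈ cell U u
      · obtain ⟨u, n', m'⟩ := h
        have := a2 u n' _ (N.inn u v m').2 (N.e0 _ _)
        rw [N.e1, hH (.inl u) (.inr v) ⟨n', n, (N.inn u v m').1⟩] at this
        rw [this]; abel
      · have h' : ∃ w ∈ S, N.pt (.inr v) = N.pt (.inr w) := ⟨v, n, rfl⟩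
        rw [show η _ = _ from (dif_neg h).trans (dif_pos h'), ← N.inj _ _ h'.choose_spec.2]
  have a4 : ∀ e ∈ N.Eg adj A S, φ e = η (vx e 1) - η (vx e 0) := by
    rintro e (⟨u, n, r⟩ | ⟨x, y, a, rfl⟩)
    · obtain ⟨s1, s2, s3⟩ := hsp u _ (vx_mem r 0)
      obtain ⟨t1, t2, t3⟩ := hsp u _ (vx_mem r 1)
      have := a1 u n e _ _ r t1 s1 (t2.trans s2.symm) s3 t3
      rw [← s3, ← t3, a2 u n _ s1 s2, a2 u n _ t1 t2, ← this]
      abel
    · rw [N.e0, N.e1, a3 x a.inn.1, a3 y a.inn.2, hH x y a]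
  obtain ⟨Q, q1, -, q2⟩ := h0
  have f1 : {u : Ci G I | (cell U u ∩ Q).Nonempty}.Finite :=
    (((g.prp K Q hK q1).prod (finite_univ (α := I))).image fun p => (⟨p.1, p.2⟩ : Ci G I)).subset (by
      rintro u ⟨_, ⟨x, b1, rfl⟩, b2⟩
      exact ⟨(u.g, u.i), ⟨⟨x, c.sub _ b1, b2⟩, trivial⟩, rfl⟩)
  have f2 := (hf.preimage (Sum.inl_injective.injOn)).union f1
  refine Submodule.mem_sup.2 ⟨_, ⟨fun p => η (vx p 0), ⟨_, (f2.isCompact_biUnion
    fun u _ => hK.smul u.g).union (hf.image N.pt).isCompact, subset_univ _, fun p hp => ?_⟩, rfl⟩,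
    φ - cob k fun p => η (vx p 0), ?_, by abel⟩
  · have hp' := vx_mem hp 0
    show η _ = 0
    generalize vx p 0 = x at hp'
    by_cases h : ∃ u : Ci G I, (cell U u ∩ A).Nonempty ∧ x ∈ cell U u
    · obtain ⟨u, n, m⟩ := h
      obtain ⟨s1, s2, s3⟩ := hsp u x m
      have b : u ∉ _ := fun b => hp' (.inl (mem_biUnion (t := fun u : Ci G I => u.g • K) b
        (smul_set_mono (c.sub _) m)))
      rw [← s3, a2 u n _ s1 s2, q2 _ fun y hy hq => b (.inr ⟨y, s1 hy, hq⟩),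
        not_not.1 fun e => b (.inl ⟨n, e⟩), add_zero]
    by_cases h' : ∃ v ∈ S, x = N.pt (.inr v)
    · obtain ⟨v, n, rfl⟩ := h'
      rw [a3 (.inr v) n]
      exact not_not.1 fun e => hp' (.inr ⟨.inr v, ⟨n, e⟩, rfl⟩)
    · exact (dif_neg h).trans (dif_neg h')
  · have b : ∀ e ∈ N.Eg adj A S, (φ - cob k fun p : Sx 0 T => η (vx p 0)) e = 0 := fun e he => by
      rw [Pi.sub_apply, cob_edge, a4 e he, sub_self]
    rintro e (⟨he, C, hC, he'⟩ | he)
    · refine van_of_sm (k := k) (𝒰 := range (cell (G := G) U)) (U := A ∩ C) ?_ (fun x _ => ?_) ?_ ?_ e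
        (subset_inter he he')
      · rintro _ ⟨u, rfl⟩; exact (c.op _).smul _
      · obtain ⟨g, i, m⟩ := c.cov x
        exact ⟨_, ⟨⟨g, i⟩, rfl⟩, m⟩
      · rw [Sb.mem_Z, map_sub, cob_cob, sub_zero]
        exact fun σ h => h1 σ (.inl ⟨h.trans inter_subset_left, C, hC, h.trans inter_subset_right⟩)
      · rintro e ⟨r, _, ⟨u, rfl⟩, r'⟩
        exact b e (.inl ⟨u, ⟨_, vx_mem r' 0, (vx_mem r 0).1⟩, r'⟩)
    · exact b e he

end Nt

end Crest.Agent.N255.Kf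

end
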