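import Crest.Agent.N233.Rg.Hs

/-!
# Row 255 (helper1): pushing cocycles on a graph to the middle levels

`Pz`: abstract pushing system; `Us`: graphs with heights, ascending and descending links connected;
`us_lab`: the instance for the distance to a convex set in a development.
-/

set_option autoImplicit false
open Relation

noncomputable section

namespace Crest.Agent.N255.Kf

variable {V A : Type} [AddCommGroup A]

/-- a pushing system on `S`: `G a b` = `b` is a push of `a`, `m` the number of pushes needed -/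
structure Pz (adj : V → V → Prop) (S : Set V) (m : V → ℕ) (G : V → V → Prop) : Prop where
  symm : ∀ a b, adj a b → adj b a
  sub : ∀ a ∈ S, ∀ b, G a b → adj a b ∧ b ∈ S ∧ m b < m a
  ex : ∀ a ∈ S, 0 < m a → ∃ b, G a b
  con : ∀ a ∈ S, ∀ b b', G a b → G a b' → ReflTransGen
    (fun u v => G a u ∧ G a v ∧ ∃ w ∈ S, adj u w ∧ adj v w ∧ m w < m a) b b'
  sq : ∀ a ∈ S, ∀ a' ∈ S, adj a a' → 0 < m a → m a' ≤ m a → G a a' ∨
    ∃ b b', G a b ∧ adj b b' ∧ b' ∈ S ∧ m b' < m a ∧ adj a' b' ∧ (G a' b' ∨ m a' < m a)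

open Classical in
/-- the potential along chosen pushes -/
def pot (m : V → ℕ) (nx : V → V) (c : V → V → A) (η : V → A) (a : V) : A :=
  if m (nx a) < m a then pot m nx c η (nx a) - c a (nx a) else η a
termination_by m a

theorem Pz.ext {adj : V → V → Prop} {S : Set V} {m : V → ℕ} {G : V → V → Prop} (h : Pz adj S m G)
    (c : V → V → A) (hs : ∀ a ∈ S, ∀ b ∈ S, adj a b → c a b + c b a = 0)
    (hq : ∀ a ∈ S, ∀ b ∈ S, ∀ b' ∈ S, ∀ w ∈ S, adj a b → adj b w → adj a b' → adj b' w →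
      c a b + c b w = c a b' + c b' w)
    (η0 : V → A) (h0 : ∀ a ∈ S, ∀ b ∈ S, adj a b → m a = 0 → m b = 0 → c a b = η0 b - η0 a)
    (F : V → Prop) (hF : ∀ a ∈ S, F a → (m a = 0 → η0 a = 0) ∧ ∀ b, G a b → F b ∧ c a b = 0) :
    ∃ η : V → A, (∀ a ∈ S, ∀ b ∈ S, adj a b → c a b = η b - η a) ∧ ∀ a ∈ S, F a → η a = 0 := by
  have : ∀ a, ∃ b, a ∈ S → 0 < m a → G a b := fun a => by
    by_cases k : a ∈ S ∧ 0 < m a
    · exact (h.ex a k.1 k.2).imp fun _ e _ _ => e
    · exact ⟨a, fun x y => (k ⟨x, y⟩).elim⟩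
  choose nx hnx using this
  have e0 : ∀ a, m a = 0 → pot m nx c η0 a = η0 a := fun a k => by
    rw [pot, if_neg (by omega)]
  have e1 : ∀ a ∈ S, 0 < m a → pot m nx c η0 a = pot m nx c η0 (nx a) - c a (nx a) := fun a k l => by
    rw [pot, if_pos (h.sub a k _ (hnx a k l)).2.2]
  refine ⟨pot m nx c η0, ?_, ?_⟩
  · set η := pot m nx c η0
    have key : ∀ n, ∀ a ∈ S, ∀ b ∈ S, adj a b → m a ≤ n → m b ≤ n → c a b = η b - η a := by
      intro n
      induction n with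
      | zero =>
        intro a ha b hb j k l
        rw [e0 a (by omega), e0 b (by omega)]
        exact h0 a ha b hb j (by omega) (by omega)
      | succ n ih =>
        have p1 : ∀ a ∈ S, m a ≤ n + 1 → ∀ b, G a b → c a b = η b - η a := fun a ha k b g => by
          have l : 0 < m a := by have := (h.sub a ha b g).2.2; omega
          have q := h.con a ha _ _ (hnx a ha l) g
          clear g
          induction q with
          | refl => rw [e1 a ha l]; abel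
          | tail _ j ih' =>
            obtain ⟨g1, g2, w, hw, j1, j2, lw⟩ := j
            obtain ⟨a1, a2, a3⟩ := h.sub a ha _ g1
            obtain ⟨b1, b2, b3⟩ := h.sub a ha _ g2
            have := hq a ha _ a2 _ b2 w hw a1 j1 b1 j2
            rw [ih', ih _ a2 w hw j1 (by omega) (by omega), ih _ b2 w hw j2 (by omega) (by omega)] at this
            exact (eq_sub_of_add_eq this.symm).trans (by abel)
        have p2 : ∀ a ∈ S, ∀ b ∈ S, adj a b → m a = n + 1 → m b ≤ n + 1 → c a b = η b - η a :=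
          fun a ha b hb j k l => by
            rcases h.sq a ha b hb j (by omega) (by omega) with g | ⟨u, u', g, j1, hu, l1, j2, g'⟩
            · exact p1 a ha k.le b g
            obtain ⟨a1, a2, a3⟩ := h.sub a ha _ g
            have := hq a ha b hb u a2 u' hu j j2 a1 j1
            rw [p1 a ha k.le u g, ih u a2 u' hu j1 (by omega) (by omega), show c b u' = η u' - η b from
              g'.elim (p1 b hb l u') fun t => ih b hb u' hu j2 (by omega) (by omega)] at this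
            exact (eq_sub_of_add_eq this).trans (by abel)
        intro a ha b hb j k l
        by_cases t : m a = n + 1
        · exact p2 a ha b hb j t l
        by_cases t' : m b = n + 1
        · have := hs a ha b hb j
          rw [p2 b hb a ha (h.symm _ _ j) t' k] at this
          exact (eq_neg_of_add_eq_zero_left this).trans (by abel)
        exact ih a ha b hb j (by omega) (by omega)
    exact fun a ha b hb j => key _ a ha b hb j (le_max_left _ _) (le_max_right _ _)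
  · intro a ha f
    generalize e : m a = n
    induction n using Nat.strong_induction_on generalizing a with
    | _ n ih =>
      rcases Nat.eq_zero_or_pos (m a) with k | k
      · rw [e0 a k, (hF a ha f).1 k]
      · obtain ⟨a1, a2, a3⟩ := h.sub a ha _ (hnx a ha k)
        obtain ⟨b1, b2⟩ := (hF a ha f).2 _ (hnx a ha k)
        rw [e1 a ha k, b2, ih _ (e ▸ a3) _ a2 b1 rfl, sub_zero]

/-- a graph with heights `ht`; `ρ` is invariant along ascending edges `Up` -/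
structure Us (adj Up : V → V → Prop) (ht ρ : V → ℕ) : Prop where
  symm : ∀ a b, adj a b → adj b a
  up : ∀ a b, Up a b → adj a b ∧ ht b = ht a + 1 ∧ ρ b = ρ a
  tri : ∀ a b, adj a b → Up a b ∨ Up b a ∨ ht b = ht a
  d1 : ∀ a, 0 < ht a → ∃ b, Up b a
  d2 : ∀ a b b', Up b a → Up b' a → b = b' ∨ ∃ w, Up w b ∧ Up w b'
  d3 : ∀ a a', adj a a' → ht a' = ht a → 0 < ht a → ∃ b b', Up b a ∧ Up b' a' ∧ adj b b'
  u1 : ∀ a, 0 < ht a → ∃ b, Up a b
  u2 : ∀ a b b', 0 < ht a → Up a b → Up a b' →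
    ReflTransGen (fun u v => Up a u ∧ Up a v ∧ ∃ w, Up u w ∧ Up v w) b b'
  u3 : ∀ a a', adj a a' → ht a' = ht a → 0 < ht a → ∃ b b', Up a b ∧ Up a' b' ∧ adj b b'

/-- slowly varying levels -/
structure Lq (adj Up : V → V → Prop) (ht ρ : V → ℕ) (lv : V → ℝ) (θ : ℕ → ℕ) (R : ℕ) (ε : ℝ) : Prop where
  mono : ∀ a b, Up a b → lv a ≤ lv b
  slow : ∀ a b, adj a b → R ≤ ρ a → R ≤ ρ b → lv a ≤ 1 → lv b ≤ lv a + ε
  pos : ∀ a, 0 < lv a → 0 < ht a
  top : ∀ a, lv a < 1 → ht a < θ (ρ a)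

/-- the model window -/
def Wn (ρ : V → ℕ) (lv : V → ℝ) (R : ℕ) (a b : ℝ) : Set V := {v | R ≤ ρ v ∧ a ≤ lv v ∧ lv v ≤ b}

open Classical in
/-- the number of pushes -/
def ms (ht ρ : V → ℕ) (lv : V → ℝ) (θ : ℕ → ℕ) (p q : ℝ) (v : V) : ℕ :=
  if lv v < p then θ (ρ v) - ht v else if q < lv v then ht v else 0

/-- pushes -/
def Gp (Up : V → V → Prop) (lv : V → ℝ) (p q : ℝ) (v u : V) : Prop :=
  (lv v < p ∧ Up v u) ∨ (q < lv v ∧ Up u v)

theorem Us.pz {adj Up : V → V → Prop} {ht ρ : V → ℕ} {lv : V → ℝ} {θ : ℕ → ℕ} {R : ℕ} {ε a b p q : ℝ}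
    (h : Us adj Up ht ρ) (l : Lq adj Up ht ρ lv θ R ε) (ha : 0 < a) (hε : 0 ≤ ε) (hap : a ≤ p)
    (hpq : p + 2 * ε ≤ q) (hqb : q ≤ b) (hb : b < 1) :
    Pz adj (Wn ρ lv R a b) (ms ht ρ lv θ p q) (Gp Up lv p q) := by
  have m1 : ∀ v, lv v < p → ms ht ρ lv θ p q v = θ (ρ v) - ht v ∧ ht v < θ (ρ v) := fun v k =>
    ⟨if_pos k, l.top v (by linarith)⟩
  have m2 : ∀ v, q < lv v → ms ht ρ lv θ p q v = ht v ∧ 0 < ht v := fun v k =>
    ⟨(if_neg (by linarith)).trans (if_pos k), l.pos v (by linarith)⟩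
  have m3 : ∀ v, p ≤ lv v → lv v ≤ q → ms ht ρ lv θ p q v = 0 := fun v k k' =>
    (if_neg k.not_gt).trans (if_neg k'.not_gt)
  -- one step up from a vertex of level at most `p + ε`
  have s1 : ∀ v ∈ Wn ρ lv R a b, ∀ u, Up v u → lv v ≤ p + ε → u ∈ Wn ρ lv R a b ∧ lv u ≤ lv v + ε ∧
      ∀ n, (lv v < p → θ (ρ v) - ht v ≤ n) → 0 < n → ms ht ρ lv θ p q u < n := fun v hv u g k => by
    obtain ⟨j, e1, e2⟩ := h.up v u g
    have f1 := l.mono v u g
    have f2 := l.slow v u j hv.1 (e2 ▸ hv.1) (by linarith)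
    refine ⟨⟨e2 ▸ hv.1, hv.2.1.trans f1, by linarith⟩, f2, fun n hn n0 => ?_⟩
    rcases lt_or_ge (lv u) p with t | t
    · have := hn (by linarith)
      have := (m1 u t).2
      rw [(m1 u t).1, e1, e2] at *
      omega
    · rwa [m3 u t (by linarith)]
  have s2 : ∀ v ∈ Wn ρ lv R a b, ∀ u, Up u v → q - ε ≤ lv v → u ∈ Wn ρ lv R a b ∧ lv v - ε ≤ lv u ∧
      ∀ n, ht v ≤ n → ms ht ρ lv θ p q u < n := fun v hv u g k => by
    obtain ⟨j, e1, e2⟩ := h.up u v g
    have f1 := l.mono u v g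
    have f2 := l.slow u v j (e2 ▸ hv.1) hv.1 (by linarith [hv.2.2])
    refine ⟨⟨e2 ▸ hv.1, by linarith, f1.trans hv.2.2⟩, by linarith, fun n hn => ?_⟩
    rcases lt_or_ge q (lv u) with t | t
    · rw [(m2 u t).1]; omega
    · rw [m3 u (by linarith) t]; omega
  refine ⟨h.symm, ?_, ?_, ?_, ?_⟩
  · rintro v hv u (⟨k, g⟩ | ⟨k, g⟩)
    · obtain ⟨a1, -, a3⟩ := s1 v hv u g (by linarith)
      exact ⟨(h.up _ _ g).1, a1, a3 _ (fun _ => (m1 v k).1.ge) (by have := m1 v k; omega)⟩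
    · obtain ⟨a1, -, a3⟩ := s2 v hv u g (by linarith)
      exact ⟨h.symm _ _ (h.up _ _ g).1, a1, a3 _ (m2 v k).1.ge⟩
  · intro v hv k
    have p0 := l.pos v (ha.trans_le hv.2.1)
    rcases lt_or_ge (lv v) p with t | t
    · exact (h.u1 v p0).imp fun _ g => .inl ⟨t, g⟩
    rcases lt_or_ge q (lv v) with t' | t'
    · exact (h.d1 v p0).imp fun _ g => .inr ⟨t', g⟩
    · exact absurd (m3 v t t') k.ne'
  · rintro v hv u u' (⟨k, g⟩ | ⟨k, g⟩) (⟨k', g'⟩ | ⟨k', g'⟩)
    · refine ReflTransGen.mono ?_ _ _ (h.u2 v u u' (l.pos v (ha.trans_le hv.2.1)) g g')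
      rintro x y ⟨g1, g2, w, g3, g4⟩
      obtain ⟨a1, a2, -⟩ := s1 v hv x g1 (by linarith)
      obtain ⟨b1, -, b3⟩ := s1 x a1 w g3 (by linarith)
      obtain ⟨-, e1, e2⟩ := h.up _ _ g1
      refine ⟨.inl ⟨k, g1⟩, .inl ⟨k, g2⟩, w, b1, (h.up _ _ g3).1, (h.up _ _ g4).1,
        b3 _ (fun _ => ?_) ?_⟩ <;> have := m1 v k <;> rw [this.1]
      · rw [e1, e2]; omega
      · omega
    · linarith
    · linarith
    · rcases h.d2 v u u' g g' with rfl | ⟨w, g3, g4⟩
      · exact .refl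
      obtain ⟨a1, a2, -⟩ := s2 v hv u g (by linarith)
      obtain ⟨b1, -, b3⟩ := s2 u a1 w g3 (by linarith)
      have := (h.up _ _ g).2.1
      exact .single ⟨.inr ⟨k, g⟩, .inr ⟨k, g'⟩, w, b1, h.symm _ _ (h.up _ _ g3).1,
        h.symm _ _ (h.up _ _ g4).1, b3 _ (by rw [(m2 v k).1]; omega)⟩
  · intro v hv v' hv' j k k'
    have p0 := l.pos v (ha.trans_le hv.2.1)
    have f1 := l.slow v v' j hv.1 hv'.1 (by linarith [hv.2.2])
    have f2 := l.slow v' v (h.symm _ _ j) hv'.1 hv.1 (by linarith [hv'.2.2])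
    rcases lt_or_ge (lv v) p with t | t
    · rcases h.tri v v' j with g | g | e
      · exact .inl (.inl ⟨t, g⟩)
      · have t' := (l.mono _ _ g).trans_lt t
        obtain ⟨-, e1, e2⟩ := h.up _ _ g
        have := (m1 v t).2
        rw [(m1 v t).1, (m1 v' t').1, ← e2] at k'
        omega
      obtain ⟨u, u', g, g', j'⟩ := h.u3 v v' j e p0
      obtain ⟨a1, -, a3⟩ := s1 v' hv' u' g' (by linarith)
      refine .inr ⟨u, u', .inl ⟨t, g⟩, j', a1, a3 _ (fun t' => (m1 v' t').1 ▸ k') k, (h.up _ _ g').1, ?_⟩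
      rcases lt_or_ge (lv v') p with t' | t'
      · exact .inl (.inl ⟨t', g'⟩)
      · exact .inr (by rwa [m3 v' t' (by linarith)])
    rcases lt_or_ge q (lv v) with t' | t'
    swap
    · exact absurd (m3 v t t') k.ne'
    rcases h.tri v v' j with g | g | e
    · have t'' := t'.trans_le (l.mono _ _ g)
      have := (h.up _ _ g).2.1
      rw [(m2 v t').1, (m2 v' t'').1] at k'
      omega
    · exact .inl (.inr ⟨t', g⟩)
    obtain ⟨u, u', g, g', j'⟩ := h.d3 v v' j e p0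
    obtain ⟨a1, -, a3⟩ := s2 v' hv' u' g' (by linarith)
    refine .inr ⟨u, u', .inr ⟨t', g⟩, j', a1, a3 _ (by rw [(m2 v t').1, e]), h.symm _ _ (h.up _ _ g').1, ?_⟩
    rcases lt_or_ge q (lv v') with t'' | t''
    · exact .inl (.inr ⟨t'', g'⟩)
    · exact .inr (by rwa [m3 v' (by linarith) t''])

section lab
open N255.Ra N255.Fa N233.Hyp N233.Rg

variable {B P : Type} {Γ : SimpleGraph B} {st : P → B → P → Prop} {φ : P → W Γ} {Q C : Set P}

variable (Γ st) in
/-- links minus closed stars of vertices are connected -/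
structure Lc : Prop where
  b0 : ∀ x a y, st x a y → ∃ c, Out Γ st x a c
  b1 : ∀ x a y, st x a y → ∀ c c', Out Γ st x a c → Out Γ st x a c' →
    ReflTransGen (fun u v => Γ.Adj u v ∧ Out Γ st x a v) c c'
  b2 : ∀ x a y b z, st x a y → st x b z → Γ.Adj a b → ∃ c, Out Γ st x a c ∧ Γ.Adj b c

variable (st φ Q) in
/-- ascending edges -/
def UpL (x y : P) : Prop := ∃ a, st x a y ∧ hp φ x a ∈ Sep φ Q y

theorem us_lab (H : Lab Γ st φ) (L : Lc Γ st) (hC : C.Nonempty) (hCQ : C ⊆ Q) :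
    Us (fun x y => ∃ a, st x a y) (UpL st φ Q) (ns φ Q) fun x => ns φ C x - ns φ Q x := by
  have hQ := hC.mono hCQ
  have dn : ∀ {x a y}, st x a y → hp φ x a ∈ Sep φ Q x → UpL st φ Q y x := fun e k =>
    ⟨_, H.symm _ _ _ e, by rwa [hp_st H e]⟩
  have asc : ∀ {x a y}, st x a y → hp φ x a ∉ Sep φ Q x → Vert φ Q (hp φ x a) → UpL st φ Q x y :=
    fun e n v => ⟨_, e, v.sep n (sd_st_ne H e)⟩
  have ua : ∀ {x a y}, st x a y → hp φ x a ∈ Sep φ Q y → hp φ x a ∉ Sep φ Q x := fun e k =>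
    hp_st H e ▸ (sep_desc H hQ (H.symm _ _ _ e) (by rwa [hp_st H e])).2
  have tr : ∀ {x a y b}, st x a y → Γ.Adj a b → (hp φ y b ∈ Sep φ Q y ↔ hp φ x b ∈ Sep φ Q x) :=
    fun e j => by
      rw [hp_adj H e j]
      have := sd_st H e fun r => j.ne (hw_inj r).symm
      exact ⟨fun k => Sep.congr k this.symm, fun k => Sep.congr k this⟩
  have hor : ∀ {x a y}, st x a y → ns φ Q y = ns φ Q x → ¬Vert φ Q (hp φ x a) := fun {x a y} e k v => by
    by_cases n : hp φ x a ∈ Sep φ Q x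
    · have := ns_desc H hQ e n; omega
    · have := ns_asc H hQ e n v; omega
  have sq : ∀ {x b y c z}, st x b y → st x c z → Γ.Adj b c → hp φ x b ∈ Sep φ Q y →
      hp φ x c ∈ Sep φ Q z → ∃ w, UpL st φ Q y w ∧ UpL st φ Q z w := fun e e' j k k' => by
    obtain ⟨u, u1, u2⟩ := H.dia _ _ _ _ _ j e e'
    exact ⟨u, asc u1 (fun m => ua e' k' ((tr e j).1 m)) (by rw [hp_adj H e j]; exact Sep.vert k'),
      asc u2 (fun m => ua e k ((tr e' j.symm).1 m)) (by rw [hp_adj H e' j.symm]; exact Sep.vert k)⟩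
  refine ⟨fun _ _ h => h.imp fun _ => H.symm _ _ _, ?_, ?_, ?_, ?_, ?_, ?_, ?_, ?_⟩
  · rintro x y ⟨a, e, k⟩
    rw [← hp_st H e] at k
    have h1 := ns_desc H hQ (H.symm _ _ _ e) k
    have h2 := ns_desc H hC (H.symm _ _ _ e) (Sep.anti hCQ k)
    exact ⟨⟨a, e⟩, h1, by omega⟩
  · rintro x y ⟨a, e⟩
    by_cases n : hp φ x a ∈ Sep φ Q x
    · exact .inr (.inl (dn e n))
    by_cases v : Vert φ Q (hp φ x a)
    · exact .inl (asc e n v)
    · exact .inr (.inr (by rw [ns, ns, sep_hor H e v]))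
  · intro x h
    obtain ⟨a, y, e, k⟩ := exists_desc' H hQ h
    exact ⟨y, dn e k⟩
  · rintro x y y' ⟨a, e, k⟩ ⟨b, e', k'⟩
    replace e := H.symm _ _ _ e
    replace e' := H.symm _ _ _ e'
    rw [hp_st H e] at k
    rw [hp_st H e'] at k'
    by_cases n : a = b
    · exact .inl (H.det _ _ _ _ e (n ▸ e'))
    have j := adj_of_desc hQ k k' n
    obtain ⟨u, u1, u2⟩ := H.dia _ _ _ _ _ j e e'
    exact .inr ⟨u, dn u1 ((tr e j).2 k'), dn u2 ((tr e' j.symm).2 k)⟩
  · rintro x x' ⟨b, e⟩ k h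
    obtain ⟨a, y, e', k'⟩ := exists_desc' H hQ h
    have j := adj_of_hor k' (hor e k)
    obtain ⟨u, u1, u2⟩ := H.dia _ _ _ _ _ j e' e
    exact ⟨y, u, dn e' k', dn u2 ((tr e j.symm).2 k'), b, u1⟩
  · intro x h
    obtain ⟨a, y, e, k⟩ := exists_desc' H hQ h
    obtain ⟨c, o⟩ := L.b0 x a y e
    exact o.1.imp fun z hz => asc hz (o.asc hQ k).1 (o.asc hQ k).2
  · rintro x y z h g g'
    obtain ⟨a, w, h1, h2⟩ := exists_desc' H hQ h
    have oa : ∀ {c z}, Out Γ st x a c → st x c z → hp φ x c ∈ Sep φ Q z := fun o e =>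
      (o.asc hQ h2).2.sep (o.asc hQ h2).1 (sd_st_ne H e)
    have key : ∀ y, UpL st φ Q x y → ∃ c z, Out Γ st x a c ∧ st x c z ∧ (y = z ∨
        ∃ w, UpL st φ Q y w ∧ UpL st φ Q z w) := fun y ⟨b, e, k⟩ => by
      by_cases j : Γ.Adj a b
      · obtain ⟨c, o, j'⟩ := L.b2 _ _ _ _ _ h1 e j
        obtain ⟨z, hz⟩ := o.1
        exact ⟨c, z, o, hz, .inr (sq e hz j' k (oa o hz))⟩
      · exact ⟨b, y, ⟨⟨y, e⟩, fun r => ua e k (r ▸ h2), j⟩, e, .inl rfl⟩
    obtain ⟨b', y', o1, e1, p1⟩ := key y g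
    obtain ⟨c', z', o2, e2, p2⟩ := key z g'
    have mid : ReflTransGen (fun u v => UpL st φ Q x u ∧ UpL st φ Q x v ∧
        ∃ w, UpL st φ Q u w ∧ UpL st φ Q v w) y' z' := by
      have q := L.b1 _ _ _ h1 _ _ o1 o2
      clear p2
      induction q generalizing z' with
      | refl => rw [H.det _ _ _ _ e1 e2]
      | @tail d d' q j ih =>
        have o : Out Γ st x a d := by
          cases q with
          | refl => exact o1
          | tail _ j => exact j.2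
        obtain ⟨t, ht⟩ := o.1
        exact (ih t o ht).tail ⟨⟨_, ht, oa o ht⟩, ⟨_, e2, oa o2 e2⟩, sq ht e2 j.1 (oa o ht) (oa o2 e2)⟩
    refine ReflTransGen.trans ?_ (mid.trans ?_)
    · rcases p1 with rfl | p1
      exacts [.refl, .single ⟨g, ⟨_, e1, oa o1 e1⟩, p1⟩]
    · rcases p2 with rfl | ⟨w, a1, a2⟩
      exacts [.refl, .single ⟨⟨_, e2, oa o2 e2⟩, g', w, a2, a1⟩]
  · rintro x x' ⟨b, e⟩ k h
    obtain ⟨a, w, h1, h2⟩ := exists_desc' H hQ h
    obtain ⟨c, o, j⟩ := L.b2 _ _ _ _ _ h1 e (adj_of_hor h2 (hor e k))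
    obtain ⟨u, hu⟩ := o.1
    obtain ⟨v, v1, v2⟩ := H.dia _ _ _ _ _ j e hu
    exact ⟨u, v, asc hu (o.asc hQ h2).1 (o.asc hQ h2).2, asc v1 (fun m => (o.asc hQ h2).1 ((tr e j).1 m))
      (by rw [hp_adj H e j]; exact (o.asc hQ h2).2), b, v2⟩

end lab

end Crest.Agent.N255.Kf

end
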