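import Crest.Agent.N255.Kf.Net
import Crest.Agent.N255.Kf.Push
import Crest.Agent.N255.Wn.Re

/-!
# Row 255 (helper1): an exact zone with finite `H^1` on a non-compact window (abstract form)
-/

set_option autoImplicit false
open Set Filter Topology
open scoped Pointwise

noncomputable section

namespace Crest.Agent.N255.Kf

open Tp Uc Wn
open Wi (FR)

variable {G T V : Type} [Group G] [TopologicalSpace T] [MulAction G T] [MulAction G V] {d : ℕ}
  {adj Up : V → V → Prop} {dl : V → V → ℕ} {o : V} {ht ρ : V → ℕ} {lv : V → ℝ} {θ : ℕ → ℕ}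
  {s r : C(T, ℝ)}

theorem ms_zero {R : ℕ} {ε p q : ℝ} (l : Lq adj Up ht ρ lv θ R ε) (hp : p ≤ 1) (hq : 0 ≤ q) {v : V}
    (h : ms ht ρ lv θ p q v = 0) : p ≤ lv v ∧ lv v ≤ q := by
  unfold ms at h
  split_ifs at h with a b
  · have := l.top v (by linarith); omega
  · have := l.pos v (by linarith); omega
  · exact ⟨not_lt.1 a, not_lt.1 b⟩

variable (G dl o ρ lv s r) in
/-- comparison of the space and the model -/
structure Ct (cv : Set (Set T)) (k : Type) [Field k] : Prop where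
  op : ∀ U ∈ cv, IsOpen U
  cov : univ ⊆ ⋃₀ cv
  bdd : ∃ K, IsCompact K ∧ ∀ U ∈ cv, ∃ g : G, U ⊆ g • K
  slow : ∀ K : Set T, IsCompact K → ∀ ε : ℝ, 0 < ε → ∃ R, ∀ (g : G), ∀ x ∈ g • K, ∀ y ∈ g • K, R < r x →
    |s x - s y| ≤ ε
  tv : ∀ K : Set T, IsCompact K → ∀ (D : ℕ) (ε : ℝ), 0 < ε → ∀ R1 : ℕ, ∃ R, ∀ x v, Bd G dl o K D {x} v →
    R < r x → ε ≤ s x → s x ≤ 1 - ε → R1 ≤ ρ v ∧ |s x - lv v| ≤ ε
  vt : ∀ K : Set T, IsCompact K → ∀ (D : ℕ) (ε : ℝ), 0 < ε → ∀ R : ℝ, ∃ R1, ∀ x v, Bd G dl o K D {x} v →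
    R1 ≤ ρ v → ε ≤ lv v → lv v ≤ 1 - ε → R < r x ∧ |s x - lv v| ≤ ε
  box : ∀ a b R, IsCompact (box s r a b R)
  fex : ∀ a a' b' b : ℝ, 0 < a → a < a' → a' < b' → b' < b → b < 1 → ∃ R', ∀ φ ∈ Cc k univ k 1,
    φ ∈ ((On (win s a b)).inf (Sm cv)).Z k k 1 → ∃ (η : T → k) (R : ℝ),
      (∀ e ∈ ((On (fw s r a' b' R')).inf (Sm cv)).S 1, φ e = η (vx e 1) - η (vx e 0)) ∧
        ∀ x ∈ fw s r a' b' R, η x = 0

theorem fr_pairs {k N P : Type} [Field k] [AddCommGroup P] [Module k P] {Z B : Submodule k P}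
    (t : P →ₗ[k] N × N → k) (Al : N → N → Prop) (J : N → Prop) {E : Set (N × N)} (hE : E.Finite)
    (h1 : ∀ φ ∈ Z, ∃ H : N → k, {x | J x ∧ H x ≠ 0}.Finite ∧
      ∀ x y, Al x y → (x, y) ∉ E → t φ (x, y) = H y - H x)
    (h2 : ∀ φ ∈ Z, ∀ H : N → k, {x | J x ∧ H x ≠ 0}.Finite → (∀ x y, Al x y → t φ (x, y) = H y - H x) →
      φ ∈ B) : FR Z B := by
  classical
  let D : Submodule k (N × N → k) :=
    { carrier := {ψ | ∃ H : N → k, {x | J x ∧ H x ≠ 0}.Finite ∧ ∀ x y, Al x y → ψ (x, y) = H y - H x}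
      add_mem' := by
        rintro ψ ψ' ⟨H, a, b⟩ ⟨H', a', b'⟩
        refine ⟨H + H', (a.union a').subset fun x h => ?_, fun x y h => by
          simp only [Pi.add_apply, b x y h, b' x y h]; abel⟩
        by_contra n
        simp only [mem_union, mem_ofPred, h.1, true_and, not_or, not_not] at n
        exact h.2 (by simp [n.1, n.2])
      zero_mem' := ⟨0, by simp, by simp⟩
      smul_mem' := by
        rintro c ψ ⟨H, a, b⟩
        exact ⟨c • H, a.subset fun x h => ⟨h.1, fun e => h.2 (by simp [e])⟩, fun x y h => by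
          simp only [Pi.smul_apply, b x y h, smul_sub]⟩ }
  have := hE.to_subtype
  let L : (E → k) →ₗ[k] N × N → k :=
    { toFun := fun u p => if h : p ∈ E then u ⟨p, h⟩ else 0
      map_add' := fun u v => by funext p; by_cases h : p ∈ E <;> simp [h]
      map_smul' := fun c u => by funext p; by_cases h : p ∈ E <;> simp [h] }
  have : FR (Z.map t) D := ⟨LinearMap.range L, by
    rw [LinearMap.range_eq_map]; exact Module.Finite.fg_top.map L, by
    rintro _ ⟨φ, hφ, rfl⟩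
    obtain ⟨H, a, b⟩ := h1 φ hφ
    refine Submodule.mem_sup.2 ⟨_, ⟨fun p => t φ p.1 - (H p.1.2 - H p.1.1), rfl⟩, t φ - _, ⟨H, a, fun x y h => ?_⟩,
      add_sub_cancel _ _⟩
    by_cases n : (x, y) ∈ E
    · simp [L, n]
    · simp [L, n, b x y h n]⟩
  exact (this.comap t).mono le_rfl fun φ ⟨a, H, b, c⟩ => h2 φ a H b c

variable [ContinuousConstSMul G T]

/-- **exact zones** -/
theorem zone [Countable G] {k : Type} [Field k] (g : GM (d + 1) G T) (m : Mo G adj dl) (u : Us adj Up ht ρ)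
    (lq : ∀ ε : ℝ, 0 < ε → ∃ R0, ∀ R, R0 ≤ R → Lq adj Up ht ρ lv θ R ε) {cv : Set (Set T)}
    (ct : Ct G dl o ρ lv s r cv k) {l0 l b b0 : ℝ} (h0 : 0 < l0) (h1 : l0 < l) (h2 : l < b) (h3 : b < b0) (h4 : b0 < 1) :
    ∃ (X : Sb T) (K : Set T), IsCompact K ∧ ((On (win s l b)).inf (Sm cv)).Le X ∧
      (∀ n, ∀ σ ∈ X.S n, (range σ ⊆ win s l0 b0 ∧
        (range σ ⊆ lo s b ∨ range σ ⊆ hi s l)) ∧ ∃ g : G, range σ ⊆ g • K) ∧
      FR (Cc k univ k 1 ⊓ X.Z k k 1) ((Cc k univ k 0).map (cob k) ⊔ X.van k k 1) := by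
  classical
  have := g.t2
  have := g.lc
  obtain ⟨ε, e0, e1, e2, e3⟩ : ∃ ε : ℝ, 0 < ε ∧ 4 * ε ≤ l - l0 ∧ 4 * ε ≤ b0 - b ∧ 10 * ε ≤ b - l :=
    ⟨min ((l - l0) / 4) (min ((b0 - b) / 4) ((b - l) / 10)), by
      simp only [lt_min_iff]; refine ⟨?_, ?_, ?_⟩ <;> linarith,
      by linarith [min_le_left ((l - l0) / 4) (min ((b0 - b) / 4) ((b - l) / 10))],
      by linarith [(min_le_right ((l - l0) / 4) _).trans (min_le_left ((b0 - b) / 4) ((b - l) / 10))],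
      by linarith [(min_le_right ((l - l0) / 4) _).trans (min_le_right ((b0 - b) / 4) ((b - l) / 10))]⟩
  obtain ⟨K0, k0, k1⟩ := g.exists_fd
  obtain ⟨K1, k3, k4⟩ := ct.bdd
  obtain ⟨K, hK, k5⟩ := exists_compact_superset (k0.union k3)
  have k2 := subset_union_left.trans k5
  obtain ⟨Rc, hRc⟩ := ct.slow K hK ε e0
  let Sz0 : Set T → Prop := fun X => X ⊆ win s l0 b0 ∧ (X ⊆ lo s b ∨ X ⊆ hi s l)
  have m0 : ∀ X Y, X ⊆ Y → Sz0 Y → Sz0 X := fun X Y h a => ⟨h.trans a.1, a.2.imp h.trans h.trans⟩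
  have z0 : ∀ (X : Set T) (c : ℝ), l - ε ≤ c → c ≤ b + ε → (∀ y ∈ X, |s y - c| ≤ ε) → Sz0 X :=
    fun X c a1 a2 a => by
      refine ⟨fun y hy => ?_, (lt_or_ge c (b - ε)).imp (fun t y hy => ?_) fun t y hy => ?_⟩ <;>
        have := abs_le.1 (a y hy)
      exacts [⟨by linarith, by linarith⟩, show s y < b by linarith, show l < s y by linarith]
  have ow : ∀ a b, IsOpen (win s a b) := fun a b =>
    (isOpen_lt continuous_const s.continuous).inter (isOpen_lt s.continuous continuous_const)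
  obtain ⟨I, _, U, 𝒲, c, hW⟩ := exists_cl g k0 (fun x => (k1 x).imp fun _ h => interior_subset h) hK k2
    (ct.box l b Rc) Sz0 m0 fun x hx => by
      rcases lt_or_ge (s x) b with t | t
      · exact ⟨win s l0 b, ow _ _, ⟨h1.trans_le hx.2.1, t⟩, fun _ h => ⟨h.1, h.2.trans h3⟩, .inl fun _ h => h.2⟩
      · exact ⟨win s l b0, ow _ _, ⟨h2.trans_le t, hx.2.2.trans_lt h3⟩, fun _ h => ⟨h1.trans h.1, h.2⟩,
          .inr fun _ h => h.1⟩
  obtain ⟨N⟩ := exists_nt (o := o) g m hK c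
  let Sz : Set T → Prop := fun X => Sz0 X ∧ ∃ g : G, X ⊆ g • N.K'
  have m1 : ∀ X Y, X ⊆ Y → Sz Y → Sz X := fun X Y h a => ⟨m0 X Y h a.1, a.2.imp fun _ => h.trans⟩
  have hW' : ∀ W ∈ 𝒲, (W ∩ win s l b).Nonempty → Sz W := fun W w ⟨x, a1, a2⟩ => by
    obtain ⟨t, ht⟩ := c.subW W w
    refine ⟨?_, t, ht.trans (smul_set_mono N.sub)⟩
    rcases le_or_gt (r x) Rc with k | k
    · exact hW W w ⟨x, a1, k, a2.1.le, a2.2.le⟩
    · exact z0 W (s x) (by linarith [a2.1]) (by linarith [a2.2]) fun y hy => by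
        rw [abs_sub_comm]; exact hRc t x (ht a1) y (ht hy) k
  obtain ⟨R0, hR0⟩ := lq ε e0
  obtain ⟨R', hR'⟩ := ct.fex l (l + ε) (b - ε) b (by linarith) (by linarith) (by linarith) (by linarith)
    (by linarith)
  obtain ⟨R1, hR1⟩ := ct.vt N.K' N.cpt N.D' ε e0 R'
  have L := hR0 (max R0 R1) (le_max_left _ _)
  have pz := u.pz L (a := l - ε) (b := b + ε) (p := l + 3 * ε) (q := b - 3 * ε) (by linarith) e0.le
    (by linarith) (by linarith) (by linarith) (by linarith)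
  set S := Wn ρ lv (max R0 R1) (l - ε) (b + ε)
  have b1 : ∀ X, ∀ v ∈ S, Bd G dl o N.K' N.D' X v → ∀ y ∈ X, R' < r y ∧ |s y - lv v| ≤ ε :=
    fun X v hv h y hy => hR1 y v (h.mono (singleton_subset_iff.2 hy)) ((le_max_right _ _).trans hv.1)
      (by linarith [hv.2.1]) (by linarith [hv.2.2])
  have b2 : ∀ X, ∀ v ∈ S, Bd G dl o N.K' N.D' X v → Sz X := fun X v hv h =>
    ⟨z0 X _ hv.2.1 hv.2.2 fun y hy => (b1 X v hv h y hy).2, h.imp fun _ h => h.1⟩
  have d1 : ∀ x y, N.Al adj (win s l b) S x y → dl (nu o x) (nu o y) ≤ N.D := by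
    rintro (x | x) (y | y) h
    · exact (N.link _ _ h.2.2).1
    · exact h.2.2
    · exact h.elim
    · have := N.two
      show dl x y ≤ N.D
      rcases h.2.2 with rfl | j | ⟨z, -, j, j'⟩
      · rw [m.self]; omega
      · have := m.one _ _ j; omega
      · have := m.one _ _ j; have := m.one _ _ j'; have := m.tri x z y; omega
  have d2 : ∀ x v, N.Al adj (win s l b) S x (.inr v) →
      Bd G dl o N.K' N.D' (range (N.ed x (.inr v))) v := fun x v h => by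
    obtain ⟨σ, -, a, -, a'⟩ := N.tri x x (.inr v) (d1 _ _ h) (d1 _ _ h)
    exact a'.mono (a ▸ range_fc σ 1)
  have rf : ∀ v ∈ S, N.Al adj (win s l b) S (.inr v) (.inr v) := fun v h => ⟨h, h, .inl rfl⟩
  have d3 : ∀ v ∈ S, Bd G dl o N.K' N.D' {N.pt (.inr v)} v := fun v h =>
    (d2 _ v (rf v h)).mono (singleton_subset_iff.2 ⟨_, N.e0 _ _⟩)
  have sc : ∀ x : Ci G I, (cell U x ∩ win s l b).Nonempty → Sz (cell U x) := fun x n => by
    obtain ⟨W, w, a⟩ := c.star x.g x.g x.i x.i (by rw [inter_self]; exact n.mono inter_subset_left)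
    replace a : cell U x ⊆ W := subset_union_left.trans a
    exact m1 _ _ a (hW' W w (n.mono (inter_subset_inter_left _ a)))
  have le : ((On (win s l b)).inf (Sm cv)).Le (((On (win s l b)).inf (Sm (range fun g : G => g • N.K'))).sup
      (N.Xe adj (win s l b) S Sz)) := fun n σ ⟨a1, C, a2, a3⟩ => .inl ⟨a1, (k4 C a2).elim fun t a => ⟨_, ⟨t, rfl⟩,
        a3.trans (a.trans (smul_set_mono ((subset_union_right.trans k5).trans (interior_subset.trans N.sub))))⟩⟩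
  refine ⟨_, N.K', N.cpt, le, ?_, ?_⟩
  · rintro n σ (⟨a1, _, ⟨t, rfl⟩, a2⟩ | h)
    · exact ⟨⟨fun y hy => ⟨h1.trans (a1 hy).1, (a1 hy).2.trans h3⟩, .inl fun y hy => (a1 hy).2⟩, t, a2⟩
    rcases n with _ | _ | _ | n
    · rw [eq_cst σ]
      rcases h with ⟨x, a1, a2⟩ | ⟨v, a1, a2⟩
      · exact m1 _ _ (range_cst a2) (sc x a1)
      · exact m1 _ _ (range_cst (by rw [a2]; rfl)) (b2 _ v a1 (d3 v a1))
    · rcases h with ⟨x, a1, a2⟩ | ⟨x, y | y, a, rfl⟩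
      · exact m1 _ _ a2 (sc x a1)
      · rcases x with x | x
        · obtain ⟨-, W, w, a1, a2⟩ := N.link _ _ a.2.2
          exact m1 _ _ a2 (hW' W w (a.1.mono (inter_subset_inter_left _ (subset_union_left.trans a1))))
        · exact a.elim
      · exact b2 _ y a.inn.2 (d2 x y a)
    · exact h.1
    · exact h.elim
  have fc' : ∀ C : Set T, IsCompact C → {x : Ci G I | (cell U x ∩ C).Nonempty}.Finite := fun C hC =>
    (((g.prp K C hK hC).prod (finite_univ (α := I))).image fun p => (⟨p.1, p.2⟩ : Ci G I)).subset (by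
      rintro u ⟨_, ⟨x, b1, rfl⟩, b2⟩
      exact ⟨(u.g, u.i), ⟨⟨x, c.sub _ b1, b2⟩, trivial⟩, rfl⟩)
  obtain ⟨R3, hR3⟩ := ct.tv K hK N.D ε e0 (max R0 R1)
  let Fc : Ci G I → Prop := fun x => ∀ v, dl (x.g • o) v ≤ N.D → v ∈ S
  have f1 : {x : Ci G I | (cell U x ∩ win s l b).Nonempty ∧ ¬Fc x}.Finite :=
    (fc' _ (ct.box l b R3)).subset fun x ⟨⟨y, a1, a2⟩, n⟩ => ⟨y, a1, not_lt.1 fun k => n fun v hv => by
      obtain ⟨c1, c2⟩ := hR3 y v ⟨x.g, singleton_subset_iff.2 (smul_set_mono (c.sub _) a1), hv⟩ k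
        (by linarith [a2.1]) (by linarith [a2.2])
      have := abs_le.1 c2
      exact ⟨c1, by linarith [a2.1], by linarith [a2.2]⟩, a2.1.le, a2.2.le⟩
  have f2 : (⋃ x ∈ {x : Ci G I | (cell U x ∩ win s l b).Nonempty ∧ ¬Fc x},
      {y : Ci G I ⊕ V | dl (nu o y) (x.g • o) ≤ N.D}).Finite := f1.biUnion fun x _ => m.fibN _ _
  refine fr_pairs (N := Ci G I ⊕ V) (LinearMap.funLeft k k fun p => N.ed p.1 p.2)
    (N.Al adj (win s l b) S) (In U (win s l b) S) (f2.prod f2) (fun φ ⟨hc, hz⟩ => ?_)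
    fun φ ⟨hc, hz⟩ H a1 a2 => N.glue g hK c m1 hW' hc hz H a1 a2
  have ad : ∀ x y v, N.Al adj (win s l b) S x y → N.Al adj (win s l b) S x (.inr v) →
      N.Al adj (win s l b) S y (.inr v) → φ (N.ed x y) + φ (N.ed y (.inr v)) = φ (N.ed x (.inr v)) :=
    fun x y v a1 a2 a3 => by
      obtain ⟨σ, s0, s1, s2, a⟩ := N.tri x y (.inr v) (d1 _ _ a2) (d1 _ _ a3)
      exact N.add (fun σ h => hz σ (.inr h)) (b2 _ v a2.inn.2 a) s0 s1 s2 (.inr ⟨_, _, a3, rfl⟩)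
        (.inr ⟨_, _, a2, rfl⟩) (.inr ⟨_, _, a1, rfl⟩)
  have al : ∀ v ∈ S, ∀ w ∈ S, adj v w → N.Al adj (win s l b) S (.inr v) (.inr w) :=
    fun v hv w hw j => ⟨hv, hw, .inr (.inl j)⟩
  have zz : ∀ v ∈ S, φ (N.ed (.inr v) (.inr v)) = 0 := fun v h =>
    add_eq_left.1 (ad _ _ v (rf v h) (rf v h) (rf v h))
  obtain ⟨η, R, c1, c2⟩ := hR' φ hc fun σ h => hz σ (le _ h)
  obtain ⟨Q, q1, -, q2⟩ := hc
  obtain ⟨RQ, hRQ⟩ := (q1.image r.continuous).bddAbove
  obtain ⟨R2, hR2⟩ := ct.vt N.K' N.cpt N.D' ε e0 (max R RQ)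
  have b3 : ∀ X, ∀ v ∈ S, R2 ≤ ρ v → Bd G dl o N.K' N.D' X v → ∀ y ∈ X, max R RQ < r y :=
    fun X v hv k h y hy => (hR2 y v (h.mono (singleton_subset_iff.2 hy)) k
      (by linarith [hv.2.1]) (by linarith [hv.2.2])).1
  have b4 : ∀ x v, N.Al adj (win s l b) S x (.inr v) → R2 ≤ ρ v → φ (N.ed x (.inr v)) = 0 :=
    fun x v h k => q2 _ fun y hy hq => (hRQ ⟨y, hq, rfl⟩).not_gt
      ((le_max_right _ _).trans_lt (b3 _ v h.inn.2 k (d2 x v h) y hy))
  obtain ⟨ζ, z1, z2⟩ := pz.ext (fun v w => φ (N.ed (.inr v) (.inr w)))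
    (fun v hv w hw j => (ad _ _ v (al v hv w hw j) (rf v hv) (al w hw v hv (u.symm _ _ j))).trans (zz v hv))
    (fun v hv x hx x' hx' w hw j1 j2 j3 j4 =>
      (ad _ _ w (al v hv x hx j1) ⟨hv, hw, .inr (.inr ⟨x, hx, j1, j2⟩)⟩ (al x hx w hw j2)).trans
        (ad _ _ w (al v hv x' hx' j3) ⟨hv, hw, .inr (.inr ⟨x, hx, j1, j2⟩)⟩ (al x' hx' w hw j4)).symm)
    (fun v => η (N.pt (.inr v)))
    (fun v hv w hw j _ kk => by
      have := ms_zero L (by linarith) (by linarith) kk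
      obtain ⟨t, a0, -⟩ := d2 _ w (al v hv w hw j)
      suffices H : φ (N.ed (.inr v) (.inr w)) -
          cob k (fun p : Sx 0 T => η (vx p 0)) (N.ed (.inr v) (.inr w)) = 0 by
        rw [cob_edge, N.e0, N.e1] at H
        exact sub_eq_zero.1 H
      refine van_of_sm (k := k) (U := fw s r (l + ε) (b - ε) R' ∩ t • N.K') (φ := φ - cob k fun p : Sx 0 T => η (vx p 0)) ct.op
        ((subset_univ _).trans ct.cov) ?_ (fun e a => ?_) _ (subset_inter (fun y hy => ?_) a0)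
      · rw [Sb.mem_Z, map_sub, cob_cob, sub_zero]
        exact fun σ h => hz σ (.inl ⟨fun y hy => ⟨by linarith [(h hy).1.2.1], by linarith [(h hy).1.2.2]⟩,
          _, ⟨t, rfl⟩, h.trans inter_subset_right⟩)
      · rw [Pi.sub_apply, cob_edge, c1 e ⟨a.1.trans inter_subset_left, a.2⟩, sub_self]
      obtain ⟨a1, a2⟩ := b1 _ w hw (d2 _ w (al v hv w hw j)) y hy
      have := abs_le.1 a2
      exact ⟨a1, by linarith, by linarith⟩)
    (fun v => R2 ≤ ρ v) fun v hv k => ⟨fun k' => by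
      have := ms_zero L (by linarith) (by linarith) k'
      have := abs_le.1 (b1 _ v hv (d3 v hv) _ rfl).2
      exact c2 _ ⟨(le_max_left _ _).trans_lt (b3 _ v hv k (d3 v hv) _ rfl), by linarith, by linarith⟩,
      fun w a => by
        have : R2 ≤ ρ w := a.elim (fun a => (u.up _ _ a.2).2.2 ▸ k) fun a => (u.up _ _ a.2).2.2 ▸ k
        exact ⟨this, b4 _ w (al v hv w (pz.sub v hv w a).2.1 (pz.sub v hv w a).1) this⟩⟩
  let H : Ci G I ⊕ V → k := Sum.elim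
    (fun x => if Fc x then ζ (x.g • o) - φ (N.ed (.inl x) (.inr (x.g • o))) else 0) ζ
  have s0 : ∀ x : Ci G I, dl (x.g • o) (x.g • o) ≤ N.D := fun x => by rw [m.self]; omega
  have cone : ∀ x, (cell U x ∩ win s l b).Nonempty → Fc x → ∀ v, dl (x.g • o) v ≤ N.D →
      φ (N.ed (.inl x) (.inr v)) = ζ v - H (.inl x) := fun x n f v hv => by
    rw [show H (.inl x) = _ from if_pos f]
    generalize e : dl (x.g • o) v = j
    induction j generalizing v with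
    | zero => rw [← m.zero _ _ e]; abel
    | succ j ih =>
      obtain ⟨z, a1, a2⟩ := m.step _ _ _ e
      have hz' : dl (x.g • o) z ≤ N.D := by omega
      rw [← ad (.inl x) (.inr z) v ⟨n, f z hz', hz'⟩ ⟨n, f v hv, hv⟩ (al z (f z hz') v (f v hv) (u.symm _ _ a1)),
        ih z hz' a2, z1 z (f z hz') v (f v hv) (u.symm _ _ a1)]
      abel
  refine ⟨H, ?_, ?_⟩
  · obtain ⟨R4, hR4⟩ := ct.tv N.K' N.cpt N.D' ε e0 R2
    have f3 : {v | v ∈ S ∧ ρ v < R2}.Finite := ((g.prp N.K' _ N.cpt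
        (ct.box (l - 2 * ε) (b + 2 * ε) R4)).biUnion fun t _ => m.ball (t • o) N.D').subset
      fun v ⟨hv, k⟩ => by
        have := abs_le.1 (b1 _ v hv (d3 v hv) _ rfl).2
        obtain ⟨t, a1, a2⟩ := d3 v hv
        obtain ⟨y, a3, a4⟩ := a1 rfl
        refine mem_biUnion (x := t) ⟨y, a3, ?_⟩ a2
        rw [show t • y = _ from a4]
        exact ⟨not_lt.1 fun k' => k.not_ge (hR4 _ v (d3 v hv) k' (by linarith [hv.2.1])
          (by linarith [hv.2.2])).1, by linarith [hv.2.1], by linarith [hv.2.2]⟩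
    refine (f3.biUnion fun v _ => m.fibN (I := I) (o := o) v 0).subset ?_
    rintro (x | v) ⟨n, a⟩
    · have f : Fc x := by_contra fun f => a (if_neg f)
      refine mem_biUnion (x := x.g • o) ⟨f _ (s0 x), not_le.1 fun k => a ?_⟩ (m.self _).le
      rw [show H (.inl x) = _ from if_pos f, z2 _ (f _ (s0 x)) k,
        b4 (.inl x) _ ⟨n, f _ (s0 x), s0 x⟩ k, sub_zero]
    · exact mem_biUnion (x := v) ⟨n, not_le.1 fun k => a (z2 v n k)⟩ (m.self _).le
  · intro x y a n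
    have t1 : ∀ z, x = .inl z → Fc z := by
      rintro z rfl
      exact by_contra fun f => n ⟨mem_biUnion (x := z) ⟨a.inn.1, f⟩ (s0 z),
        mem_biUnion (x := z) ⟨a.inn.1, f⟩ ((m.comm _ _).trans_le (d1 _ _ a))⟩
    have t2 : ∀ z, y = .inl z → Fc z := by
      rintro z rfl
      exact by_contra fun f => n ⟨mem_biUnion (x := z) ⟨a.inn.2, f⟩ (d1 _ _ a),
        mem_biUnion (x := z) ⟨a.inn.2, f⟩ (s0 z)⟩
    show φ (N.ed x y) = H y - H x
    rcases x with x | x <;> rcases y with y | y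
    · have f := t1 x rfl
      have f' := t2 y rfl
      have := ad _ _ (y.g • o) a ⟨a.1, f' _ (s0 y), d1 _ _ a⟩ ⟨a.2.1, f' _ (s0 y), s0 y⟩
      rw [cone x a.1 f (y.g • o) (d1 _ _ a), cone y a.2.1 f' _ (s0 y)] at this
      exact (eq_sub_of_add_eq this).trans (by abel)
    · exact cone x a.1 (t1 x rfl) y a.2.2
    · exact a.elim
    · rcases a.2.2 with rfl | j | ⟨z, hz, j, j'⟩
      · rw [zz x a.1, sub_self]
      · exact z1 x a.1 y a.2.1 j
      · rw [← ad _ _ y (al x a.1 z hz j) a (al z hz y a.2.1 j'), z1 x a.1 z hz j, z1 z hz y a.2.1 j']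
        show _ = ζ y - ζ x
        abel

end Crest.Agent.N255.Kf

end
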